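import Mathlib

/-!
# P112, chapter (G): the L⁴ recursion on canonical clusters, exact form `[H]`

Notes 15429, 15678 (helper646), 15654 (helper409).
Every definition of the block and the literal statements of the sub-blocks.
-/

open MeasureTheory
open scoped ENNReal

noncomputable section

namespace Vale.Agent.P112.H646

/-! ## 1. Canonical clusters -/

/-- `k` is `A`-near the finite set `P` (in the slopes). -/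
def Near {ι : Type} (A : ℝ) (s : ι → ℝ) (P : Finset ι) (k : ι) : Prop :=
  ∃ i ∈ P, ∃ j ∈ P, ∃ i' ∈ P, |s i' - s k| ≤ A * |s i - s j|

/-- `P` is a nonempty `A`-isolated subset of `S`. -/
def Iso {ι : Type} (A : ℝ) (s : ι → ℝ) (P S : Finset ι) : Prop :=
  P.Nonempty ∧ P ⊆ S ∧ ∀ k ∈ S, Near A s P k → k ∈ P

open Classical in
/-- the children of `P`: the maximal proper isolated subsets. -/
def ch {ι : Type} (A : ℝ) (s : ι → ℝ) (P : Finset ι) : Finset (Finset ι) :=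
  P.powerset.filter fun C =>
    C ≠ P ∧ Iso A s C P ∧ ∀ C' : Finset ι, C' ≠ P → Iso A s C' P → C ⊆ C' → C' = C

open Classical in
/-- the union of a finite family of finite sets. -/
def U {ι : Type} (D : Finset (Finset ι)) : Finset ι := D.biUnion id

/-- every subset of `P` is seen from one of its members in at most `m` relative arcs of
relative size `1/H1`. -/
def Arc {ι : Type} (m : ℕ) (H1 : ℝ) (s : ι → ℝ) (P : Finset ι) : Prop :=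
  ∀ P' ⊆ P, 2 ≤ P'.card → ∃ k ∈ P', ∃ c : Fin m → ℝ, ∀ i ∈ P', i ≠ k →
    ∃ r, |s i - c r| ≤ |c r - s k| / H1

/-- the family of finite sets which are used as nodes. -/
def Nod {ι : Type} (K m : ℕ) (H1 : ℝ) (s : ι → ℝ) (P : Finset ι) : Prop :=
  P.Nonempty ∧ P.card ≤ K ∧ Arc m H1 s P

/-- (C1) laminarity -/
def StLam : Prop := ∀ (ι : Type) (A : ℝ) (s : ι → ℝ) (P P' S : Finset ι), 1 ≤ A →
  Iso A s P S → Iso A s P' S → P ⊆ P' ∨ P' ⊆ P ∨ Disjoint P P'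

/-- (C2) the isolated subsets of an isolated set -/
def StLoc : Prop := ∀ (ι : Type) (A : ℝ) (s : ι → ℝ) (C P S : Finset ι),
  Iso A s P S → (Iso A s C P ↔ (C ⊆ P ∧ Iso A s C S))

/-- (C3) the children form a partition -/
def StCh : Prop := ∀ (ι : Type) (A : ℝ) (s : ι → ℝ) (P : Finset ι), 1 ≤ A →
  Set.InjOn s (P : Set ι) → 2 ≤ P.card →
    (∀ C ∈ ch A s P, C.Nonempty ∧ C ⊆ P ∧ C.card < P.card) ∧
    (∀ C ∈ ch A s P, ∀ C' ∈ ch A s P, C ≠ C' → Disjoint C C') ∧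
    U (ch A s P) = P ∧ 2 ≤ (ch A s P).card

/-- (C4) the parent is unique -/
def StPar : Prop := ∀ (ι : Type) (A : ℝ) (s : ι → ℝ) (C P P' S : Finset ι), 1 ≤ A →
  Iso A s P S → Iso A s P' S → C ∈ ch A s P → C ∈ ch A s P' → P = P'

/-- (C5) few children -/
def StFew : Prop := ∀ (ι : Type) (A H1 : ℝ) (m : ℕ) (s : ι → ℝ) (P : Finset ι), 1 ≤ A →
  4 * (2 * A + 1) ^ (2 * m + 2) ≤ H1 → Set.InjOn s (P : Set ι) → 2 ≤ P.card →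
  Arc m H1 s P → (ch A s P).card ≤ m + 1

/-- (C6) the groups inside one node. `D` is a set of at least two children of `P`;
it is divided into at least two parts, whose unions have diameter `≤ ρ / A2` and mutual
distance `≥ ρ`; the diameter of `P` is `≤ Γ ρ` with `Γ = (3 A) ^ (m + 2)`. -/
def StSub : Prop := ∀ (ι : Type) (A A2 : ℝ) (m : ℕ) (s : ι → ℝ) (P : Finset ι),
  1 ≤ A2 → (4 * (m + 1) * A2) ^ (m + 3) ≤ A → Set.InjOn s (P : Set ι) → 2 ≤ P.card →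
  (ch A s P).card ≤ m + 1 → ∀ D ⊆ ch A s P, 2 ≤ D.card →
  ∃ ρ : ℝ, 0 < ρ ∧ ∃ parts : Finset (Finset (Finset ι)),
    2 ≤ parts.card ∧ U parts = D ∧ (∀ p ∈ parts, p.Nonempty) ∧
    (∀ p ∈ parts, ∀ p' ∈ parts, p ≠ p' → Disjoint p p') ∧
    (∀ p ∈ parts, ∀ i ∈ U p, ∀ j ∈ U p, A2 * |s i - s j| ≤ ρ) ∧
    (∀ p ∈ parts, ∀ p' ∈ parts, p ≠ p' → ∀ i ∈ U p, ∀ j ∈ U p', ρ ≤ |s i - s j|) ∧
    (∀ i ∈ P, ∀ j ∈ P, |s i - s j| ≤ (3 * A) ^ (m + 2) * ρ)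

/-! ## 2. One segment -/

/-- the gauge -/
def gg {ι : Type} (β : ℝ) (P : Finset ι) (c : ι → ℂ) : ℝ := (∑ i ∈ P, ‖c i‖ ^ (1 / β)) ^ β

/-- the sum of the modes -/
def ff {ι : Type} (η : ℝ) (s : ι → ℝ) (P : Finset ι) (c : ι → ℂ) (x : ℝ) : ℂ :=
  ∑ i ∈ P, c i * Complex.exp (Complex.I * (η * s i * x : ℝ))

/-- (SEG) one group step on a segment; `G` = the groups. -/
def StSeg : Prop := ∃ c0 : ℝ, 0 < c0 ∧ ∀ (ι : Type) (m K : ℕ) (β A2 ρ η l : ℝ) (s : ι → ℝ)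
  (c : ι → ℂ) (P : Finset ι) (G : Finset (Finset ι)),
  1 - c0 / Real.log (m + 3) ≤ β → β ≤ 1 → 1 ≤ A2 → 0 < ρ → η ≠ 0 → 0 < l →
  |η| * ρ * l = Real.sqrt A2 → P.card ≤ K → G.card ≤ m + 1 → U G = P →
  (∀ g ∈ G, g.Nonempty) → (∀ g ∈ G, ∀ g' ∈ G, g ≠ g' → Disjoint g g') →
  (∀ g ∈ G, ∀ i ∈ g, ∀ j ∈ g, A2 * |s i - s j| ≤ ρ) →
  (∀ g ∈ G, ∀ g' ∈ G, g ≠ g' → ∀ i ∈ g, ∀ j ∈ g', ρ ≤ |s i - s j|) →
  (∀ i ∈ P, c i ≠ 0) →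
  (∫ t in (0:ℝ)..l, ‖ff η s P c t‖ ^ 4) / gg β P c ^ 2 ≤
    (∑ g ∈ G, (∫ t in (0:ℝ)..l, ‖ff η s g c t‖ ^ 4) / gg β g c ^ 2) +
      l * (14 * K ^ 3 / Real.sqrt A2) * ∑ i ∈ P, ‖c i‖ ^ 2

/-! ## 3. Boxes -/

/-- a finite family of tubes with step amplitudes: the boxes are indexed by `κ`, box `b` belongs
to the tube `tb b`, and the amplitude of this tube is `val b` on the box. -/
structure Sys (ι κ : Type) [Fintype ι] [Fintype κ] where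
  s : ι → ℝ
  η : ℝ
  tb : κ → ι
  x0 : κ → ℝ
  lam : κ → ℝ
  y0 : κ → ℝ
  h : κ → ℝ
  val : κ → ℂ
  lam_pos : ∀ b, 0 < lam b
  h_pos : ∀ b, 0 < h b
  val_ne : ∀ b, val b ≠ 0
  η_ne : η ≠ 0

variable {ι κ : Type} [Fintype ι] [Fintype κ]

namespace Sys

/-- the box `b`, enlarged by the relative amount `θ` (`θ < 0`: shrunk). -/
def bx (Z : Sys ι κ) (θ : ℝ) (b : κ) : Set (ℝ × ℝ) :=
  {z | Z.x0 b - θ * Z.lam b ≤ z.1 ∧ z.1 < Z.x0 b + Z.lam b + θ * Z.lam b ∧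
    Z.y0 b - θ * Z.h b ≤ z.2 - Z.s (Z.tb b) * z.1 ∧
    z.2 - Z.s (Z.tb b) * z.1 < Z.y0 b + Z.h b + θ * Z.h b}

open Classical in
/-- the active tubes at `z` -/
def act (Z : Sys ι κ) (z : ℝ × ℝ) : Finset ι :=
  Finset.univ.filter fun i => ∃ b, Z.tb b = i ∧ z ∈ Z.bx 0 b

open Classical in
/-- the amplitude of tube `i` -/
def a (Z : Sys ι κ) (i : ι) (z : ℝ × ℝ) : ℂ :=
  ∑ b, if Z.tb b = i ∧ z ∈ Z.bx 0 b then Z.val b else 0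

/-- the boxes of one tube are disjoint -/
def Disj (Z : Sys ι κ) : Prop :=
  ∀ b b', Z.tb b = Z.tb b' → b ≠ b' → Disjoint (Z.bx 0 b) (Z.bx 0 b')

/-- separation -/
def Sep (Z : Sys ι κ) (Q : ℝ) : Prop :=
  ∀ b b', Z.tb b ≠ Z.tb b' → (Z.bx 1 b ∩ Z.bx 1 b').Nonempty →
    Q ≤ |Z.η| * |Z.s (Z.tb b) - Z.s (Z.tb b')| * min (Z.lam b) (Z.lam b')

/-- `z` is `θ`-safe for the tube `i` -/
def Safe (Z : Sys ι κ) (θ : ℝ) (i : ι) (z : ℝ × ℝ) : Prop :=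
  ∀ b, Z.tb b = i → z ∈ Z.bx (-θ) b ∨ z ∉ Z.bx θ b

/-- the set where `P` is a node, with margin `θ` -/
def E (Z : Sys ι κ) (A : ℝ) (P : Finset ι) (θ : ℝ) : Set (ℝ × ℝ) :=
  {z | ∀ k, Near A Z.s P k → Z.Safe θ k z ∧ (k ∈ Z.act z ↔ k ∈ P)}

/-- the partial sums -/
def G (Z : Sys ι κ) (P : Finset ι) (z : ℝ × ℝ) : ℂ := ff Z.η Z.s P (fun i => Z.a i z) z.1

/-- the quotient `|G_P|⁴ / M_P²` -/
def phi (Z : Sys ι κ) (β : ℝ) (P : Finset ι) (z : ℝ × ℝ) : ℝ≥0∞ :=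
  ENNReal.ofReal (‖Z.G P z‖ ^ 4 / gg β P (fun i => Z.a i z) ^ 2)

/-- the square sum -/
def sq (Z : Sys ι κ) (P : Finset ι) (z : ℝ × ℝ) : ℝ≥0∞ :=
  ∑ i ∈ P, ENNReal.ofReal (‖Z.a i z‖ ^ 2)

end Sys

/-- (ST) stability of the sets `E P θ` along short segments in a direction of `P`. -/
def StStab : Prop := ∀ (ι κ : Type) [Fintype ι] [Fintype κ] (Z : Sys ι κ) (A D Q l δ θ : ℝ)
  (P : Finset ι), 1 ≤ A → Z.Disj → Z.Sep Q → 0 < Q → 0 ≤ l → 0 ≤ δ → δ ≤ θ → θ ≤ 1 / 2 →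
  2 ≤ P.card → (∀ i ∈ P, ∀ j ∈ P, |Z.s i - Z.s j| ≤ D) →
  (∀ b, l * ((A + 1) * D) ≤ δ * Z.h b) → |Z.η| * l * ((A + 1) * D) ≤ δ * Q →
  ∀ z ∈ Z.E A P θ, ∀ i₀ ∈ P, ∀ t : ℝ, |t| ≤ l →
    ((z.1 + t, z.2 + Z.s i₀ * t) ∈ Z.E A P (θ - δ)) ∧
    ∀ i ∈ P, Z.a i (z.1 + t, z.2 + Z.s i₀ * t) = Z.a i z

/-- (AV) one group step, integrated over the node set. -/
def StAv : Prop := ∃ c0 : ℝ, 0 < c0 ∧ ∀ (ι κ : Type) [Fintype ι] [Fintype κ] (Z : Sys ι κ)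
  (m K : ℕ) (β A A2 ρ D Q δ θ : ℝ) (P P' : Finset ι) (G : Finset (Finset ι)),
  1 - c0 / Real.log (m + 3) ≤ β → β ≤ 1 → 1 ≤ A → 1 ≤ A2 → 0 < ρ →
  Z.Disj → Z.Sep Q → 0 < Q → 0 ≤ δ → 2 * δ ≤ θ → θ ≤ 1 / 2 →
  2 ≤ P.card → P.card ≤ K → P' ⊆ P → P'.Nonempty →
  (∀ i ∈ P, ∀ j ∈ P, |Z.s i - Z.s j| ≤ D * ρ) →
  (∀ b, Real.sqrt A2 * ((A + 1) * D) ≤ δ * (|Z.η| * Z.h b)) →
  Real.sqrt A2 * ((A + 1) * D) ≤ δ * Q →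
  G.card ≤ m + 1 → U G = P' →
  (∀ g ∈ G, g.Nonempty) → (∀ g ∈ G, ∀ g' ∈ G, g ≠ g' → Disjoint g g') →
  (∀ g ∈ G, ∀ i ∈ g, ∀ j ∈ g, A2 * |Z.s i - Z.s j| ≤ ρ) →
  (∀ g ∈ G, ∀ g' ∈ G, g ≠ g' → ∀ i ∈ g, ∀ j ∈ g', ρ ≤ |Z.s i - Z.s j|) →
  ∫⁻ z in Z.E A P θ, Z.phi β P' z ≤
    (∑ g ∈ G, ∫⁻ z in Z.E A P (θ - 2 * δ), Z.phi β g z) +
      ENNReal.ofReal (14 * K ^ 3 / Real.sqrt A2) * ∫⁻ z in Z.E A P (θ - 2 * δ), Z.sq P' z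

/-- (NODE) from a node to its children. -/
def StNode : Prop := ∃ c0 : ℝ, 0 < c0 ∧ ∀ (ι κ : Type) [Fintype ι] [Fintype κ] (Z : Sys ι κ)
  (m K : ℕ) (β A A2 Q δ θ : ℝ) (P : Finset ι),
  1 - c0 / Real.log (m + 3) ≤ β → β ≤ 1 → 1 ≤ A2 → (4 * (m + 1) * A2) ^ (m + 3) ≤ A →
  Z.Disj → Z.Sep Q → 0 < Q → 0 ≤ δ → 2 * m * δ ≤ θ → θ ≤ 1 / 2 →
  2 ≤ P.card → P.card ≤ K → (ch A Z.s P).card ≤ m + 1 →
  (∀ b, Real.sqrt A2 * ((A + 1) * (3 * A) ^ (m + 2)) ≤ δ * (|Z.η| * Z.h b)) →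
  Real.sqrt A2 * ((A + 1) * (3 * A) ^ (m + 2)) ≤ δ * Q →
  ∫⁻ z in Z.E A P θ, Z.phi β P z ≤
    (∑ C ∈ ch A Z.s P, ∫⁻ z in Z.E A P (θ - 2 * m * δ), Z.phi β C z) +
      ENNReal.ofReal (m * (14 * K ^ 3 / Real.sqrt A2)) *
        ∫⁻ z in Z.E A P (θ - 2 * m * δ), Z.sq P z

/-- `[H]` THE HEART: the L⁴ bound with the gauge. -/
def StHeart : Prop := ∃ c0 : ℝ, 0 < c0 ∧ ∀ (ι κ : Type) [Fintype ι] [Fintype κ] (Z : Sys ι κ)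
  (m K : ℕ) (β A A2 H1 Q δ : ℝ) (F : Set (ℝ × ℝ)),
  1 - c0 / Real.log (m + 3) ≤ β → β ≤ 1 → 1 ≤ m → 1 ≤ A2 → (4 * (m + 1) * A2) ^ (m + 3) ≤ A →
  4 * (2 * A + 1) ^ (2 * m + 2) ≤ H1 →
  Z.Disj → Z.Sep Q → 0 < Q → 0 ≤ δ → 2 * m * K * δ ≤ 1 / 2 →
  (∀ b, Real.sqrt A2 * ((A + 1) * (3 * A) ^ (m + 2)) ≤ δ * (|Z.η| * Z.h b)) →
  Real.sqrt A2 * ((A + 1) * (3 * A) ^ (m + 2)) ≤ δ * Q →
  MeasurableSet F →
  (∀ z ∈ F, (Z.act z).card ≤ K ∧ Arc m H1 Z.s (Z.act z) ∧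
    ∀ k, Z.Safe (2 * m * K * δ) k z) →
  ∫⁻ z in F, Z.phi β Finset.univ z ≤
    ENNReal.ofReal (1 + K * (m * (14 * K ^ 3 / Real.sqrt A2))) * ∫⁻ z, Z.sq Finset.univ z

end Vale.Agent.P112.H646
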