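import Vale.Agent.P112.H646.Main
import Vale.Agent.P112.H8.StepD
import Vale.Agent.P112.F30.Defs

/-!
# P112, chapter (G), `[GAIN]`: interfaces (helper646)

Tree side: boxes of the trees, divided into occupancy levels, with all the properties which the
analytic side needs (`Out`). `R` = a power of `C S 2 ^ ν`; `H0` = height of the window;
`θ H0` = height of the boxes; `2 ^ r` = the boxes are `2 ^ r` times shorter than the active scales.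
-/

open MeasureTheory Set
open scoped ENNReal

noncomputable section

namespace Vale.Agent.P112.H646.Gain

open T F30 H8

variable {M : ℕ} {ι : Type}

/-- A `Q`-separated family of trees (pair against pair). -/
structure SepTrees (u : ℝ × ℝ → ℝ) (S Q : ℝ) (n : ℕ) (s : ι → ℝ) (E : ι → ℕ → Set (ℝ × ℝ)) :
    Prop where
  meas : ∀ i j, MeasurableSet (E i j)
  bdd : ∃ r : ℝ, ∀ i j, ∀ z ∈ E i j, |z.1| ≤ r ∧ |z.2| ≤ r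
  lt : ∀ i j, n ≤ j → E i j = ∅
  slope : ∀ i j, ∀ z ∈ E i j, |u z - s i| ≤ S * 2 ^ j
  conv : ∀ i z, ∀ j k l : ℕ, j ≤ k → k ≤ l → z ∈ E i j → z ∈ E i l → z ∈ E i k
  uniq : ∀ i i' j j' z, z ∈ E i j → z ∈ E i' j' → i = i'
  sep : ∀ i i', i ≠ i' → ∀ j j' : ℕ, j' ≤ j → ∀ z ∈ E i j, ∀ z' ∈ E i' j',
    |z.1 - z'.1| ≤ 4 / 2 ^ j' → |(z.2 - s i' * z.1) - (z'.2 - s i' * z'.1)| ≤ Q →
    Q * 2 ^ j ≤ |s i - s i'|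

/-- The tree function in the coordinates of its tube. -/
def tg (κ : Ker M) (u g : ℝ × ℝ → ℝ) (n : ℕ) (s : ι → ℝ) (E : ι → ℕ → Set (ℝ × ℝ)) (i : ι)
    (w : ℝ × ℝ) : ℂ :=
  ((κ.FS u g (E i) n (w.1, w.2 + s i * w.1) : ℝ) : ℂ)

/-- The box, enlarged by its own size on all sides, in the plane. -/
def big {K : Type} (X : Bxs ι K) (k : K) : Set (ℝ × ℝ) :=
  {z | X.x0 k - X.lam k ≤ z.1 ∧ z.1 < X.x0 k + 2 * X.lam k ∧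
    X.y0 k - X.h k ≤ z.2 - X.s (X.tb k) * z.1 ∧
    z.2 - X.s (X.tb k) * z.1 < X.y0 k + 2 * X.h k}

open Classical in
/-- The tubes with a box over `z`. -/
def act [Fintype ι] {K : Type} (X : Bxs ι K) (z : ℝ × ℝ) : Finset ι :=
  Finset.univ.filter fun i => X.tilt i z ∈ X.reg i

/-- The active offsets over the box `k`: seen from a point of its `x`-interval, pairs of scale
`2 ^ (-j) ≥ 2 ^ r lam`. The tolerance `B` is `1 + S` or `3 + S`. -/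
def Ao {K : Type} (s : ι → ℝ) (E : ι → ℕ → Set (ℝ × ℝ)) (r : ℕ) (B : ℝ) (X : Bxs ι K) (k : K) :
    Set ℝ :=
  {t | ∃ j : ℕ, 2 ^ r * X.lam k ≤ 1 / 2 ^ j ∧ ∃ z ∈ E (X.tb k) j,
    (∃ x ∈ Ico (X.x0 k) (X.x0 k + X.lam k), |z.1 - x| ≤ 1 / (8 * 2 ^ j)) ∧
    |z.2 - s (X.tb k) * z.1 - t| ≤ B}

/-! ### (1) boxes -/

/-- The boxes: `N0` occupancy levels. -/
structure Boxes [Fintype ι] (s : ι → ℝ) (E : ι → ℕ → Set (ℝ × ℝ)) (S Q H0 θ : ℝ) (r : ℕ)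
    (G : ι → ℝ × ℝ → ℂ) (N0 : ℕ) (K : Fin N0 → Type) (X : ∀ a, Bxs ι (K a)) : Prop where
  s_eq : ∀ a : Fin N0, (X a).s = s
  disj : ∀ a : Fin N0, (X a).Disj
  /-- the levels are disjoint -/
  lev : ∀ (i : ι) (w : ℝ × ℝ) (a a' : Fin N0), w ∈ (X a).reg i → w ∈ (X a').reg i → a = a'
  height : ∀ (a : Fin N0) (k : K a), (X a).h k = θ * H0
  len : ∀ (a : Fin N0) (k : K a), (X a).lam k ≤ 1 / 2 ^ r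
  /-- outside of the boxes the window is empty -/
  out : ∀ (i : ι) (w : ℝ × ℝ), (∀ a : Fin N0, w ∉ (X a).reg i) →
    ∀ t ∈ Ioc w.2 (w.2 + H0), G i (w.1, t) = 0
  /-- occupancy from above -/
  occ : ∀ (a : Fin N0) (k : K a), ∀ w ∈ (X a).box k,
    volume {t | t ∈ Ioc w.2 (w.2 + H0) ∧ G ((X a).tb k) (w.1, t) ≠ 0} ≤
      ENNReal.ofReal (2 * H0 * (1 / 2) ^ (a : ℕ))
  /-- occupancy from below -/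
  low : ∀ (a : Fin N0) (k : K a), ENNReal.ofReal (H0 * (1 / 2) ^ (a : ℕ)) ≤
    volume (Ioo ((X a).y0 k) ((X a).y0 k + (1 + θ) * H0) ∩ Ao s E r (3 + S) (X a) k)
  /-- separation -/
  sep : ∀ (a : Fin N0) (k k' : K a), (X a).tb k ≠ (X a).tb k' →
    (big (X a) k ∩ big (X a) k').Nonempty →
    Q / 2 ^ (r + 4) ≤ |s ((X a).tb k) - s ((X a).tb k')| * min ((X a).lam k) ((X a).lam k')
  num : (N0 : ℝ) ≤ 3 + 2 * Real.log H0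

/-- The oscillation on the boxes, with an `L²` bound. -/
def Osc [Fintype ι] (G : ι → ℝ × ℝ → ℂ) (H0 θ e : ℝ) (V : ℝ≥0∞) (N0 : ℕ) (K : Fin N0 → Type)
    (X : ∀ a, Bxs ι (K a)) : Prop :=
  ∃ gs : ι → ℝ × ℝ → ℝ≥0∞, (∀ i, Measurable (gs i)) ∧
    (∀ (a : Fin N0) (k : K a), ∀ x ∈ Ico ((X a).x0 k) ((X a).x0 k + (X a).lam k),
      ∀ x' ∈ Ico ((X a).x0 k) ((X a).x0 k + (X a).lam k),
      ∀ t ∈ Ioo ((X a).y0 k) ((X a).y0 k + (1 + θ) * H0),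
      ‖G ((X a).tb k) (x, t) - G ((X a).tb k) (x', t)‖ₑ ≤ gs ((X a).tb k) (x, t)) ∧
    ∑ i, ∫⁻ w, gs i w ^ 2 ≤ ENNReal.ofReal e * V

/-- The boxes are quiet: the pairs of the tube which are shorter than `2 ^ r lam` and whose
offsets are near the window are not near the `x`-interval of the box. -/
def Quiet (s : ι → ℝ) (E : ι → ℕ → Set (ℝ × ℝ)) (S H0 θ : ℝ) (r N0 : ℕ) (K : Fin N0 → Type)
    (X : ∀ a, Bxs ι (K a)) : Prop :=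
  ∀ (a : Fin N0) (k : K a) (j : ℕ), 1 / 2 ^ j < 2 ^ r * (X a).lam k →
    ∀ z ∈ E ((X a).tb k) j, (X a).y0 k - (3 + S) ≤ z.2 - s ((X a).tb k) * z.1 →
      z.2 - s ((X a).tb k) * z.1 ≤ (X a).y0 k + (1 + θ) * H0 + (3 + S) →
      ∀ x ∈ Ico ((X a).x0 k) ((X a).x0 k + (X a).lam k), 2 ^ r * (X a).lam k / 4 < |z.1 - x|

/-- `[BOX]` = boxes with `Quiet` (helper8) + `[OSC]` (`Quiet ⇒ Osc`). -/
def StBox0 (κ : Ker M) : Prop := ∃ (C : ℝ), 1 ≤ C ∧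
  ∀ (u : ℝ × ℝ → ℝ), Field u → ∀ (n : ℕ) (g : ℝ × ℝ → ℝ), Nice g → (∀ z, |g z| ≤ 1) →
  ∀ (S Q H0 θ : ℝ) (r : ℕ), 1 ≤ S → C * H0 ≤ Q → 1 < H0 → S ≤ H0 → 0 < θ → θ ≤ 1 → C ≤ r →
  ∀ (ι : Type) [Fintype ι] (s : ι → ℝ) (E : ι → ℕ → Set (ℝ × ℝ)), SepTrees u S Q n s E →
    ∃ (N0 : ℕ) (K : Fin N0 → Type) (_ : ∀ a, Fintype (K a)) (X : ∀ a, Bxs ι (K a)),
      Boxes s E S Q H0 θ r (tg κ u g n s E) N0 K X ∧ Quiet s E S H0 θ r N0 K X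

/-- `[OSC]`, owners helper864, helper580. -/
def StOsc (κ : Ker M) : Prop := ∃ (C : ℝ) (c : ℕ), 1 ≤ C ∧
  ∀ (u : ℝ × ℝ → ℝ), Field u → ∀ (n : ℕ) (g : ℝ × ℝ → ℝ), Nice g → (∀ z, |g z| ≤ 1) →
  ∀ (S Q H0 θ : ℝ) (r : ℕ), 1 ≤ S → 1 < H0 → S ≤ H0 → 0 < θ → θ ≤ 1 → C ≤ r →
  ∀ (ι : Type) [Fintype ι] (s : ι → ℝ) (E : ι → ℕ → Set (ℝ × ℝ)), SepTrees u S Q n s E →
    (∀ i j, E i j ⊆ {z | g z ≠ 0}) →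
    ∀ (N0 : ℕ) (K : Fin N0 → Type) [∀ a, Fintype (K a)] (X : ∀ a, Bxs ι (K a)),
      Boxes s E S Q H0 θ r (tg κ u g n s E) N0 K X → Quiet s E S H0 θ r N0 K X →
      Osc (tg κ u g n s E) H0 θ ((C * S ^ c / 2 ^ r) ^ 2) (volume {z | g z ≠ 0}) N0 K X

/-- `[BOX]`, the form which is used. -/
def StBox (κ : Ker M) : Prop := ∃ (C : ℝ) (c : ℕ), 1 ≤ C ∧
  ∀ (u : ℝ × ℝ → ℝ), Field u → ∀ (n ν : ℕ) (g : ℝ × ℝ → ℝ), Nice g → (∀ z, |g z| ≤ 1) →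
  ∀ (S Q H0 θ : ℝ) (r : ℕ), 1 ≤ S → C * (S * 2 ^ ν) ^ c * H0 ≤ Q → 1 < H0 →
    S ≤ H0 → 0 < θ → θ ≤ 1 → C ≤ r →
  ∀ (ι : Type) [Fintype ι] (s : ι → ℝ) (E : ι → ℕ → Set (ℝ × ℝ)), SepTrees u S Q n s E →
    (∀ i j, E i j ⊆ Pd u {z | g z ≠ 0} 4 n ν j) →
    ∃ (N0 : ℕ) (K : Fin N0 → Type) (_ : ∀ a, Fintype (K a)) (X : ∀ a, Bxs ι (K a)),
      Boxes s E S Q H0 θ r (tg κ u g n s E) N0 K X ∧
      Osc (tg κ u g n s E) H0 θ ((C * (S * 2 ^ ν) ^ c / 2 ^ r) ^ 2) (volume {z | g z ≠ 0}) N0 K X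

/-! ### (2) the number of tubes of one level (SPARSE) -/

/-- `[SQ]`, owners helper597, helper22, helper919: `2 ^ (-a) ∫ N_a² ≤ R |E|`. -/
def StSq : Prop := ∃ (C : ℝ) (c : ℕ), 1 ≤ C ∧
  ∀ (u : ℝ × ℝ → ℝ), Field u → ∀ (n ν : ℕ) (E0 : Set (ℝ × ℝ)), MeasurableSet E0 →
  (∃ ρ : ℝ, ∀ z ∈ E0, |z.1| ≤ ρ ∧ |z.2| ≤ ρ) →
  ∀ (ε S Q H0 θ : ℝ) (r : ℕ), (∀ x y y', |u (x, y) - u (x, y')| ≤ ε * |y - y'|) →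
    1 ≤ S → C * (S * 2 ^ ν) ^ c * H0 ≤ Q → 1 < H0 → S ≤ H0 → 0 < θ → θ ≤ 1 → C ≤ r →
    C * (S * 2 ^ ν) ^ c * H0 * ε ≤ 1 →
  ∀ (ι : Type) [Fintype ι] (s : ι → ℝ) (E : ι → ℕ → Set (ℝ × ℝ)), SepTrees u S Q n s E →
    (∀ i j, E i j ⊆ Pd u E0 4 n ν j) →
  ∀ (G : ι → ℝ × ℝ → ℂ) (N0 : ℕ) (K : Fin N0 → Type) [∀ a, Fintype (K a)]
    (X : ∀ a, Bxs ι (K a)), Boxes s E S Q H0 θ r G N0 K X →
    ∀ a : Fin N0, ENNReal.ofReal ((1 / 2) ^ (a : ℕ)) * ∫⁻ z, ((act (X a) z).card : ℝ≥0∞) ^ 2 ≤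
      ENNReal.ofReal (C * (S * 2 ^ ν) ^ c) * volume E0

/-! ### (3) arcs -/

/-- `[ARC]`, owners helper22, helper597: off a small set the active tubes are in `m` arcs. -/
def StArcs : Prop := ∃ (C : ℝ) (c : ℕ), 1 ≤ C ∧
  ∀ (u : ℝ × ℝ → ℝ), Field u → ∀ (n ν : ℕ) (E0 : Set (ℝ × ℝ)), MeasurableSet E0 →
  (∃ ρ : ℝ, ∀ z ∈ E0, |z.1| ≤ ρ ∧ |z.2| ≤ ρ) →
  ∀ (ε S Q H0 θ H1 : ℝ) (r m : ℕ), (∀ x y y', |u (x, y) - u (x, y')| ≤ ε * |y - y'|) →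
    1 ≤ S → 1 ≤ H1 → C * (S * 2 ^ ν) ^ c * H0 * H1 ≤ Q → 1 < H0 → S ≤ H0 → 0 < θ → θ ≤ 1 →
    C ≤ r → C * (S * 2 ^ ν) ^ c * H0 * H1 * ε ≤ 1 → 1 ≤ m →
  ∀ (ι : Type) [Fintype ι] (s : ι → ℝ) (E : ι → ℕ → Set (ℝ × ℝ)), SepTrees u S Q n s E →
    (∀ i j, E i j ⊆ Pd u E0 4 n ν j) →
  ∀ (G : ι → ℝ × ℝ → ℂ) (N0 : ℕ) (K : Fin N0 → Type) [∀ a, Fintype (K a)]
    (X : ∀ a, Bxs ι (K a)), Boxes s E S Q H0 θ r G N0 K X →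
    ∀ a : Fin N0, ∃ D : Set (ℝ × ℝ), MeasurableSet D ∧
      ENNReal.ofReal ((1 / 2) ^ (a : ℕ)) * volume D ≤
        ENNReal.ofReal (C * (S * 2 ^ ν) ^ c *
          (2 : ℝ) ^ (-((m : ℝ) / (C * (S * 2 ^ ν) ^ c)))) * volume E0 ∧
      ∀ z ∉ D, Arc m H1 s (act (X a) z)

/-! ### (4) moments and primitives -/

/-- `[LQ]` (helper967: `HL.tqA1`): moments of the trees. -/
def StLq (κ : Ker M) : Prop := ∃ (C : ℝ) (c : ℕ), 1 ≤ C ∧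
  ∀ (u : ℝ × ℝ → ℝ), Field u → ∀ (n : ℕ) (g : ℝ × ℝ → ℝ), Nice g → (∀ z, |g z| ≤ 1) →
  ∀ (S Q : ℝ), 1 ≤ S →
  ∀ (ι : Type) [Fintype ι] (s : ι → ℝ) (E : ι → ℕ → Set (ℝ × ℝ)), SepTrees u S Q n s E →
    (∀ i j, E i j ⊆ {z | g z ≠ 0}) → ∀ q : ℝ, 2 ≤ q →
    ∑ i, ∫⁻ w, ‖tg κ u g n s E i w‖ₑ ^ q ≤
      ENNReal.ofReal ((C * S ^ c * q ^ 3) ^ q) * volume {z | g z ≠ 0}

/-- `[PRIM]`, owner helper580: vertical primitives (for the low bands). -/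
def StPrim (κ : Ker M) : Prop := ∃ (C : ℝ) (c : ℕ), 1 ≤ C ∧
  ∀ (u : ℝ × ℝ → ℝ), Field u → ∀ (n : ℕ) (g : ℝ × ℝ → ℝ), Nice g → (∀ z, |g z| ≤ 1) →
  ∀ (S Q : ℝ), 1 ≤ S →
  ∀ (ι : Type) [Fintype ι] (s : ι → ℝ) (E : ι → ℕ → Set (ℝ × ℝ)), SepTrees u S Q n s E →
    (∀ i j, E i j ⊆ {z | g z ≠ 0}) →
    ∃ g1 : ι → ℝ × ℝ → ℂ, (∀ i, Measurable (g1 i)) ∧ (∃ B : ℝ, ∀ i z, ‖g1 i z‖ ≤ B) ∧
      (∀ i x t, HasDerivAt (fun t => g1 i (x, t)) (tg κ u g n s E i (x, t)) t) ∧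
      ∑ i, ∫⁻ w, ‖g1 i w‖ₑ ^ 2 ≤ ENNReal.ofReal (C * S ^ c) * volume {z | g z ≠ 0}

/-! ### (5) everything together -/

/-- What the analytic side needs. `V` = measure of `E`, `R` = polylogarithmic factor. -/
structure Out [Fintype ι] (s : ι → ℝ) (G : ι → ℝ × ℝ → ℂ) (V : ℝ≥0∞) (R H0 θ Qs e H1 : ℝ)
    (m N0 : ℕ) (K : Fin N0 → Type) (X : ∀ a, Bxs ι (K a)) : Prop where
  s_eq : ∀ a : Fin N0, (X a).s = s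
  disj : ∀ a : Fin N0, (X a).Disj
  lev : ∀ (i : ι) (w : ℝ × ℝ) (a a' : Fin N0), w ∈ (X a).reg i → w ∈ (X a').reg i → a = a'
  height : ∀ (a : Fin N0) (k : K a), (X a).h k = θ * H0
  out : ∀ (i : ι) (w : ℝ × ℝ), (∀ a : Fin N0, w ∉ (X a).reg i) →
    ∀ t ∈ Ioc w.2 (w.2 + H0), G i (w.1, t) = 0
  occ : ∀ (a : Fin N0) (k : K a), ∀ w ∈ (X a).box k,
    volume {t | t ∈ Ioc w.2 (w.2 + H0) ∧ G ((X a).tb k) (w.1, t) ≠ 0} ≤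
      ENNReal.ofReal (2 * H0 * (1 / 2) ^ (a : ℕ))
  sep : ∀ (a : Fin N0) (k k' : K a), (X a).tb k ≠ (X a).tb k' →
    (big (X a) k ∩ big (X a) k').Nonempty →
    Qs ≤ |s ((X a).tb k) - s ((X a).tb k')| * min ((X a).lam k) ((X a).lam k')
  num : (N0 : ℝ) ≤ 3 + 2 * Real.log H0
  osc : Osc G H0 θ e V N0 K X
  sq : ∀ a : Fin N0, ENNReal.ofReal ((1 / 2) ^ (a : ℕ)) *
    ∫⁻ z, ((act (X a) z).card : ℝ≥0∞) ^ 2 ≤ ENNReal.ofReal R * V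
  arc : ∀ a : Fin N0, ∃ D : Set (ℝ × ℝ), MeasurableSet D ∧
    ENNReal.ofReal ((1 / 2) ^ (a : ℕ)) * volume D ≤
      ENNReal.ofReal (R * (2 : ℝ) ^ (-((m : ℝ) / R))) * V ∧
    ∀ z ∉ D, Arc m H1 s (act (X a) z)
  mG : ∀ i, Measurable (G i)
  bG : ∃ B : ℝ, ∀ i z, ‖G i z‖ ≤ B
  lq : ∀ q : ℝ, 2 ≤ q → ∑ i, ∫⁻ w, ‖G i w‖ₑ ^ q ≤ ENNReal.ofReal ((R * q ^ 3) ^ q) * V
  prim : ∃ g1 : ι → ℝ × ℝ → ℂ, (∀ i, Measurable (g1 i)) ∧ (∃ B : ℝ, ∀ i z, ‖g1 i z‖ ≤ B) ∧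
    (∀ i x t, HasDerivAt (fun t => g1 i (x, t)) (G i (x, t)) t) ∧
    ∑ i, ∫⁻ w, ‖g1 i w‖ₑ ^ 2 ≤ ENNReal.ofReal R * V

/-- The tree side, complete. -/
def StTree (κ : Ker M) : Prop := ∃ (C : ℝ) (c : ℕ), 1 ≤ C ∧
  ∀ (u : ℝ × ℝ → ℝ), Field u → ∀ (n ν : ℕ) (g : ℝ × ℝ → ℝ), Nice g → (∀ z, |g z| ≤ 1) →
  ∀ (ε S Q H0 θ H1 : ℝ) (r m : ℕ), (∀ x y y', |u (x, y) - u (x, y')| ≤ ε * |y - y'|) →
    1 ≤ S → 1 ≤ H1 → C * (S * 2 ^ ν) ^ c * H0 * H1 ≤ Q → 1 < H0 → S ≤ H0 → 0 < θ → θ ≤ 1 →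
    C ≤ r → C * (S * 2 ^ ν) ^ c * H0 * H1 * ε ≤ 1 → 1 ≤ m →
  ∀ (ι : Type) [Fintype ι] (s : ι → ℝ) (E : ι → ℕ → Set (ℝ × ℝ)), SepTrees u S Q n s E →
    (∀ i j, E i j ⊆ Pd u {z | g z ≠ 0} 4 n ν j) →
    ∃ (N0 : ℕ) (K : Fin N0 → Type) (_ : ∀ a, Fintype (K a)) (X : ∀ a, Bxs ι (K a)),
      Out s (tg κ u g n s E) (volume {z | g z ≠ 0}) (C * (S * 2 ^ ν) ^ c) H0 θ (Q / 2 ^ (r + 4))
        ((C * (S * 2 ^ ν) ^ c / 2 ^ r) ^ 2) H1 m N0 K X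

/-- The analytic side: the gain from `Out`. `V` is a real number here, `Fm` = the measure of the
support of `f`. -/
def StAna : Prop := ∀ c : ℕ, ∃ A : ℕ, ∀ B : ℕ, ∃ C : ℝ, 1 ≤ C ∧ ∀ L : ℝ, C ≤ L →
  ∃ (H0 θ H1 : ℝ) (r m : ℕ), 1 < H0 ∧ L ^ c ≤ H0 ∧ 0 < θ ∧ θ ≤ 1 ∧ L ≤ r ∧ 1 ≤ H1 ∧ 1 ≤ m ∧
    L ^ c * H0 * H1 ≤ Real.exp (L ^ A) ∧
    ∀ (ι : Type) [Fintype ι] (s : ι → ℝ) (G : ι → ℝ × ℝ → ℂ) (V R Qs e : ℝ) (N0 : ℕ)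
      (K : Fin N0 → Type) [∀ a, Fintype (K a)] (X : ∀ a, Bxs ι (K a)),
      0 < V → 1 ≤ R → R ≤ L ^ c → Real.exp (L ^ A) / 2 ^ (r + 4) ≤ Qs →
      e = (R / 2 ^ r) ^ 2 →
      Out s G (ENNReal.ofReal V) R H0 θ Qs e H1 m N0 K X →
      ∀ f : ℝ × ℝ → ℂ, Measurable f → (∀ z, ‖f z‖ ≤ 1) →
        volume {z | f z ≠ 0} = ENNReal.ofReal (Real.exp (-L) * V) →
        ‖∫ z : ℝ × ℝ, f z * ∑ i, G i (z.1, z.2 - s i * z.1)‖ * L ^ B ≤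
          C * Real.exp (-L / 2) * V

end Vale.Agent.P112.H646.Gain
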