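import Vale.Agent.P112.H646.AnaLev
import Vale.Agent.P112.H371.Marg2
import Vale.Agent.P112.H371.LevWin

/-!
# P112, `[GAIN]`: the analytic side, `stAna : StAna` (helper646)
-/

open MeasureTheory Set Filter
open scoped ENNReal

noncomputable section

namespace Vale.Agent.P112.H646.Gain

open Vale.Agent.P112.H371 (Wa)
open Vale.Agent.P112.H8 (Bxs)
open Vale.Agent.P112.H172

/-- the loss of one level -/
def epsL (R p L : ℝ) : ℝ :=
  40 * R ^ 2 * p ^ 2 * Real.exp (-(L / (40 * p))) + 128 * R * Real.exp (-(L / 8)) +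
    1024 * R ^ 2 * Real.exp (-(L / 8))

theorem Out.lq2 {ι : Type} [Fintype ι] {s : ι → ℝ} {G : ι → ℝ × ℝ → ℂ} {V : ℝ≥0∞}
    {R H0 θ Qs e H1 : ℝ} {m N0 : ℕ} {K : Fin N0 → Type} {X : ∀ a, Bxs ι (K a)}
    (h : Out s G V R H0 θ Qs e H1 m N0 K X) :
    ∑ i, ∫⁻ w, ‖G i w‖ₑ ^ 2 ≤ ENNReal.ofReal ((8 * R) ^ 2) * V := by
  have h1 := h.lq 2 le_rfl
  simp only [ENNReal.rpow_two] at h1
  have h2 : (R * 2 ^ 3) ^ (2 : ℝ) = (8 * R) ^ 2 := by
    rw [show (2 : ℝ) = ((2 : ℕ) : ℝ) by norm_num, Real.rpow_natCast]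
    push_cast
    ring
  rwa [h2] at h1

theorem Out.lq4 {ι : Type} [Fintype ι] {s : ι → ℝ} {G : ι → ℝ × ℝ → ℂ} {V : ℝ≥0∞}
    {R H0 θ Qs e H1 : ℝ} {m N0 : ℕ} {K : Fin N0 → Type} {X : ∀ a, Bxs ι (K a)}
    (h : Out s G V R H0 θ Qs e H1 m N0 K X) :
    ∑ i, ∫⁻ w, ‖G i w‖ₑ ^ 4 ≤ ENNReal.ofReal ((64 * R) ^ 4) * V := by
  have h1 := h.lq 4 (by norm_num)
  have h3 : ∀ x : ℝ≥0∞, x ^ (4 : ℝ) = x ^ 4 := fun x => by
    rw [show (4 : ℝ) = ((4 : ℕ) : ℝ) by norm_num, ENNReal.rpow_natCast]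
  simp only [h3] at h1
  have h2 : (R * 4 ^ 3) ^ (4 : ℝ) = (64 * R) ^ 4 := by
    rw [show (4 : ℝ) = ((4 : ℕ) : ℝ) by norm_num, Real.rpow_natCast]
    push_cast
    ring
  rwa [h2] at h1

/-- the good part of one level, raw bound of `level` -/
theorem ana_lev0 : ∃ c0 : ℝ, 0 < c0 ∧ c0 ≤ 1 / 2 ∧
    ∀ (C0 : ℝ) (k0 B : ℕ) (L : ℝ), 16 ≤ C0 → Num.OK C0 2 k0 B L → 24 ≤ L →
    ∀ (ι : Type) [Fintype ι] (s : ι → ℝ) (G : ι → ℝ × ℝ → ℂ) (v : ℝ≥0∞) (R Qs e : ℝ) (N0 : ℕ)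
      (K : Fin N0 → Type) [∀ a, Fintype (K a)] (X : ∀ a, Bxs ι (K a)),
      v ≠ 0 → v ≠ ⊤ → 1 ≤ R → R ≤ L ^ k0 → Num.Q k0 L * Real.exp (-(C0 * L)) ≤ Qs →
      e = (R / 2 ^ rr L) ^ 2 →
      Out s G v R (Num.H0 k0 L) (Real.exp (-(C0 * L))) Qs e (Num.H1 2 k0 L) (Num.m k0 L) N0 K X →
      ∀ (a : Fin N0) (F : Set (ℝ × ℝ)) (g1 : ι → ℝ × ℝ → ℂ) (gs : ι → ℝ × ℝ → ℝ≥0∞) (B1 : ℝ),
      (∀ i, Measurable (g1 i)) → (∀ i z, ‖g1 i z‖ ≤ B1) →
      (∀ i x t, HasDerivAt (fun t => g1 i (x, t)) (G i (x, t)) t) →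
      (∀ i, Measurable (gs i)) →
      (∀ (a : Fin N0) (k : K a), ∀ x ∈ Ico ((X a).x0 k) ((X a).x0 k + (X a).lam k),
        ∀ x' ∈ Ico ((X a).x0 k) ((X a).x0 k + (X a).lam k),
        ∀ t ∈ Ioo ((X a).y0 k) ((X a).y0 k + (1 + Real.exp (-(C0 * L))) * Num.H0 k0 L),
        ‖G ((X a).tb k) (x, t) - G ((X a).tb k) (x', t)‖ₑ ≤ gs ((X a).tb k) (x, t)) →
      MeasurableSet F →
      (∀ z ∈ F, (act (X a) z).card ≤ Num.K 2 L ∧ MM L ≤ (act (X a) z).card ∧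
        Arc (Num.m k0 L) (Num.H1 2 k0 L) s (act (X a) z) ∧
        T580.Lev.SafeB (X a) (2 * Num.m k0 L * Num.K 2 L * Num.del C0 2 k0 L) z) →
        ∫⁻ z in F, Wa (Num.H0 k0 L) (fun w => ‖T580.Lev.Gz (X a) G z w‖ₑ ^ 2) z ≤
      (Num.K 2 L : ℝ≥0∞) * (ENNReal.ofReal (8 * Real.exp (-(C0 * L)) / Num.H0 k0 L +
            8 / Num.H0 k0 L ^ 2 + 2 * Real.exp (-(C0 * L)) ^ 2) * ∑ i, ∫⁻ w, ‖g1 i w‖ₑ ^ 2) +
          2 * ((Num.K 2 L : ℝ≥0∞) * (ENNReal.ofReal (8 * Real.exp (-(C0 * L))) *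
            (∑ i, ∫⁻ w, ‖G i w‖ₑ ^ 2) + 2 * ∑ i, ∫⁻ w, gs i w ^ 2)) +
          2 * ((ENNReal.ofReal (1 + Num.K 2 L * (Num.m k0 L *
              (14 * (Num.K 2 L : ℝ) ^ 3 / √(Num.A2 2 L)))) *
            ∑ i, ∫⁻ w, ‖G i w‖ₑ ^ 2) ^ (1 / 2 : ℝ) *
          ((∑ i, ∫⁻ w, ‖G i w‖ₑ ^ (2 * (Real.log (Num.m k0 L + 3) / c0))) ^
              (1 / (Real.log (Num.m k0 L + 3) / c0)) *
            ((MM L : ℝ≥0∞) ^ (-((2 * (Real.log (Num.m k0 L + 3) / c0) *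
                (1 - (1 - c0 / Real.log (Num.m k0 L + 3))) - 1) /
                (Real.log (Num.m k0 L + 3) / c0 - 1))) *
              (ENNReal.ofReal (2 * (1 / 2) ^ (a : ℕ)) *
                ∫⁻ z in F, ((T580.Lev.act (X a) z).card : ℝ≥0∞) ^ 2)) ^
                  (1 - 1 / (Real.log (Num.m k0 L + 3) / c0))) ^ (1 / 2 : ℝ)) := by
  obtain ⟨c0', hc0', lev⟩ := T580.Lev.level
  refine ⟨min c0' (1 / 2), by positivity, min_le_right _ _, ?_⟩
  set c0 := min c0' (1 / 2) with hc0def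
  have hc0 : 0 < c0 := by positivity
  have hc0le : c0 ≤ c0' := min_le_left _ _
  have hc0h : c0 ≤ 1 / 2 := min_le_right _ _
  intro C0 k0 B L hC0 ok hL24 ι _ s G v R Qs e N0 K _ X hv0 hvt hR hRL hQs he out a F g1 gs B1
    hg1m hB1 hg1d hgsm hosc hFm hF
  have hL3 : 3 ≤ L := ok.L3
  have hL0 : 0 < L := by linarith
  set m := Num.m k0 L with hm
  set Kn := Num.K 2 L with hKn
  set A2 := Num.A2 2 L with hA2
  set Ac := Num.Ac 2 k0 L with hAc
  set δ := Num.del C0 2 k0 L with hδ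
  set H0 := Num.H0 k0 L with hH0
  set t := Real.exp (-(C0 * L)) with ht
  set lg := Real.log (m + 3) with hlg
  have ht0 : 0 < t := Real.exp_pos _
  have ht1 : t ≤ 1 := Real.exp_le_one_iff.2 (by nlinarith)
  have ht16 : t ≤ Real.exp (-(16 * L)) := Real.exp_le_exp.2 (by nlinarith)
  have hm1 : 1 ≤ m := ok.m1
  have hm1r : (1 : ℝ) ≤ m := by exact_mod_cast hm1
  have hlg1 : 1 ≤ lg := by
    rw [hlg, Real.le_log_iff_exp_le (by positivity)]
    have := Real.exp_one_lt_d9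
    linarith
  set p := lg / c0 with hp
  have hp2 : 2 ≤ p := by
    rw [hp, le_div_iff₀ hc0]
    linarith
  have hp1 : 1 < p := by linarith
  set β := 1 - c0 / lg with hβ
  have hβ2 : 2 * p * (1 - β) = 2 := by
    rw [hp, hβ]
    have : lg ≠ 0 := by positivity
    field_simp
    ring
  have hθs : 2 * (m : ℝ) * Kn * δ ≤ t / 2 := ok.del_le
  have hH0pos : 0 < H0 := Real.exp_pos _
  have hX := out.height a
  have hs := out.s_eq a
  have hm0 : (0 : ℝ) ≤ m := by positivity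
  have hK0 : (0 : ℝ) ≤ Kn := by positivity
  have hδ0 : 0 ≤ δ := ok.del_pos.le
  have hθh : 2 * (m : ℝ) * Kn * δ ≤ 1 / 2 := by linarith
  obtain ⟨B', hB'⟩ := out.bG
  have hocc : ∀ k, ∀ w ∈ (X a).box k, volume {t | t ∈ Ioc w.2 (w.2 + H0) ∧
      G ((X a).tb k) (w.1, t) ≠ 0} ≤ ENNReal.ofReal ((2 * (1 / 2) ^ (a : ℕ)) * H0) := by
    intro k w hw
    refine (out.occ a k w hw).trans (ENNReal.ofReal_le_ofReal (le_of_eq ?_))
    ring
  have hMM1 : 1 ≤ MM L := by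
    have h1 := le_MM L
    have h2 : (1 : ℝ) ≤ Real.exp (L / 10) := Real.one_le_exp (by positivity)
    exact_mod_cast h2.trans h1
  have hlev := lev ι (K a) (X a) m Kn (MM L) β p Ac A2 (Num.H1 2 k0 L) (t * Qs) δ t H0 t
    (max B' B1) (2 * (1 / 2) ^ (a : ℕ)) G g1 gs F
    (by
      rw [hβ]
      have : c0 / lg ≤ c0' / lg := by gcongr
      linarith)
    (by
      rw [hβ]
      have : c0 / lg ≤ 1 / 2 := by
        rw [div_le_iff₀ (by positivity)]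
        nlinarith
      linarith)
    (by
      rw [hβ]
      have : 0 ≤ c0 / lg := by positivity
      linarith)
    hp1 (by rw [hβ2]; norm_num) hm1 ok.A21 le_rfl le_rfl (out.disj a)
    (H371.sepB_of (X a) ht0.le (fun k k' h1 h2 => by
      rw [hs]
      exact out.sep a k k' h1 h2))
    (by
      have h1 : 0 < Num.Q k0 L * t := by
        have : 0 < Num.Q k0 L := Real.exp_pos _
        positivity
      have h2 : 0 < Qs := h1.trans_le hQs
      positivity)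
    hδ0 hθh
    (by
      intro b
      rw [hX b]
      have h1 := ok.box
      have h2 := ok.P1
      have h3 : Num.X 2 k0 L ≤ Num.X 2 k0 L * Num.P C0 k0 L :=
        le_mul_of_one_le_right ok.X_pos.le h2
      exact h3.trans h1)
    (by
      have h1 := ok.sep
      have h2 := ok.P1
      have h3 : Num.X 2 k0 L ≤ Num.X 2 k0 L * Num.P C0 k0 L :=
        le_mul_of_one_le_right ok.X_pos.le h2
      refine (h3.trans h1).trans ?_
      have h4 : t * Num.Q k0 L ≤ Qs := by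
        rw [mul_comm]
        exact hQs
      gcongr)
    hH0pos ht0 (fun k => (hX k).le) ht1 (by positivity)
    out.mG hg1m hgsm (fun i z => (hB' i z).trans (le_max_left _ _))
    (fun i z => (hB1 i z).trans (le_max_right _ _)) hg1d
    (by
      intro k x hx x' hx' t' ht'
      refine hosc a k x hx x' hx' t' ?_
      rw [hX k] at ht'
      refine ⟨ht'.1, ?_⟩
      have := ht'.2
      linarith)
    (by
      rintro i w ⟨k, hk, hw⟩
      rw [← hk]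
      exact hocc k w hw)
    hFm
    (by
      intro z hz
      rw [act_eq]
      obtain ⟨h1, h2, h3, h4⟩ := hF z hz
      refine ⟨h1, h2, ?_, h4⟩
      rw [hs]
      exact h3)
    hMM1
  refine hlev.trans (le_of_eq ?_)
  rw [Finset.sum_add_distrib, ← Finset.mul_sum, ← Finset.mul_sum]

/-- the good part of one level -/
theorem ana_lev : ∃ c0 : ℝ, 0 < c0 ∧ c0 ≤ 1 / 2 ∧
    ∀ (C0 : ℝ) (k0 B : ℕ) (L : ℝ), 16 ≤ C0 → Num.OK C0 2 k0 B L → 24 ≤ L →
    ∀ (ι : Type) [Fintype ι] (s : ι → ℝ) (G : ι → ℝ × ℝ → ℂ) (v : ℝ≥0∞) (R Qs e : ℝ) (N0 : ℕ)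
      (K : Fin N0 → Type) [∀ a, Fintype (K a)] (X : ∀ a, Bxs ι (K a)),
      v ≠ 0 → v ≠ ⊤ → 1 ≤ R → R ≤ L ^ k0 → Num.Q k0 L * Real.exp (-(C0 * L)) ≤ Qs →
      e = (R / 2 ^ rr L) ^ 2 →
      Out s G v R (Num.H0 k0 L) (Real.exp (-(C0 * L))) Qs e (Num.H1 2 k0 L) (Num.m k0 L) N0 K X →
      ∀ (a : Fin N0) (D : Set (ℝ × ℝ)), MeasurableSet D →
      (∀ z ∉ D, Arc (Num.m k0 L) (Num.H1 2 k0 L) s (act (X a) z)) →
        ∫⁻ z in {z | MM L ≤ (act (X a) z).card ∧ (act (X a) z).card ≤ Num.K 2 L ∧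
          z ∉ D ∪ T580.Ana.Uns (X a) (2 * Num.m k0 L * Num.K 2 L * Num.del C0 2 k0 L)},
          Wa (Num.H0 k0 L) (fun w => ‖T580.Lev.Gz (X a) G z w‖ₑ ^ 2) z ≤
          ENNReal.ofReal ((40 * R ^ 2 * (Real.log (Num.m k0 L + 3) / c0) ^ 2 *
            Real.exp (-(L / (40 * (Real.log (Num.m k0 L + 3) / c0))))) ^ 2) * v := by
  obtain ⟨c0, hc0, hc0h, lev⟩ := ana_lev0
  refine ⟨c0, hc0, hc0h, ?_⟩
  intro C0 k0 B L hC0 ok hL24 ι _ s G v R Qs e N0 K _ X hv0 hvt hR hRL hQs he out a D hDm hDa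
  have hL3 : 3 ≤ L := ok.L3
  have hL0 : 0 < L := by linarith
  set m := Num.m k0 L with hm
  set Kn := Num.K 2 L with hKn
  set A2 := Num.A2 2 L with hA2
  set Ac := Num.Ac 2 k0 L with hAc
  set δ := Num.del C0 2 k0 L with hδ
  set H0 := Num.H0 k0 L with hH0
  set t := Real.exp (-(C0 * L)) with ht
  set lg := Real.log (m + 3) with hlg
  have ht0 : 0 < t := Real.exp_pos _
  have ht1 : t ≤ 1 := Real.exp_le_one_iff.2 (by nlinarith)
  have ht16 : t ≤ Real.exp (-(16 * L)) := Real.exp_le_exp.2 (by nlinarith)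
  have hm1 : 1 ≤ m := ok.m1
  have hm1r : (1 : ℝ) ≤ m := by exact_mod_cast hm1
  have hlg1 : 1 ≤ lg := by
    rw [hlg, Real.le_log_iff_exp_le (by positivity)]
    have := Real.exp_one_lt_d9
    linarith
  set p := lg / c0 with hp
  have hp2 : 2 ≤ p := by
    rw [hp, le_div_iff₀ hc0]
    linarith
  have hp1 : 1 < p := by linarith
  set β := 1 - c0 / lg with hβ
  have hβ2 : 2 * p * (1 - β) = 2 := by
    rw [hp, hβ]
    have : lg ≠ 0 := by positivity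
    field_simp
    ring
  have hθs : 2 * (m : ℝ) * Kn * δ ≤ t / 2 := ok.del_le
  have hH0pos : 0 < H0 := Real.exp_pos _
  obtain ⟨g1, hg1m, ⟨B1, hB1⟩, hg1d, hg1s⟩ := out.prim
  obtain ⟨gs, hgsm, hosc, hgss⟩ := out.osc
  set τ := ENNReal.ofReal ((1 / 2) ^ (a : ℕ)) with hτ
  have hpow : ENNReal.ofReal (2 * (1 / 2) ^ (a : ℕ)) = 2 * τ := by
    rw [ENNReal.ofReal_mul (by norm_num), hτ]
    norm_num
  have hm0 : (0 : ℝ) ≤ m := by positivity
  have hK0 : (0 : ℝ) ≤ Kn := by positivity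
  have hδ0 : 0 ≤ δ := ok.del_pos.le
  have hθ0 : 0 ≤ 2 * (m : ℝ) * Kn * δ := by positivity
  have hθh : 2 * (m : ℝ) * Kn * δ ≤ 1 / 2 := by linarith
  set Dx := D ∪ T580.Ana.Uns (X a) (2 * m * Kn * δ) with hDx
  have hDxm : MeasurableSet Dx := hDm.union (T580.Ana.uns_meas _ _)
  set F1 : Set (ℝ × ℝ) := {z | MM L ≤ (act (X a) z).card ∧ (act (X a) z).card ≤ Kn ∧ z ∉ Dx}
    with hF1
  have hF1m : MeasurableSet F1 := by
    have hc := meas_card' (X a)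
    have e1 : F1 = ({z | ((MM L : ℕ) : ℝ≥0∞) ≤ (act (X a) z).card} ∩
        {z | ((act (X a) z).card : ℝ≥0∞) ≤ (Kn : ℝ≥0∞)}) ∩ Dxᶜ := by
      ext z
      simp only [hF1, mem_ofPred_eq, mem_inter_iff, mem_compl_iff, Nat.cast_le, and_assoc]
    rw [e1]
    exact ((measurableSet_le measurable_const hc).inter
      (measurableSet_le hc measurable_const)).inter hDxm.compl
  have hMM1 : 1 ≤ MM L := by
    have h1 := le_MM L
    have h2 : (1 : ℝ) ≤ Real.exp (L / 10) := Real.one_le_exp (by positivity)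
    exact_mod_cast h2.trans h1
  have hlev := lev C0 k0 B L hC0 ok hL24 ι s G v R Qs e N0 K X hv0 hvt hR hRL hQs he out a F1 g1 gs
    B1 hg1m hB1 hg1d hgsm hosc hF1m
    (by
      intro z hz
      refine ⟨hz.2.1, hz.1, hDa z fun h => hz.2.2 (Or.inl h), ?_⟩
      by_contra h
      exact hz.2.2 (Or.inr h))
  have hR0 : 0 < R := by linarith
  have hN2 : τ * ∫⁻ z, ((act (X a) z).card : ℝ≥0∞) ^ 2 ≤ ENNReal.ofReal R * v := out.sq a
  have hHge : 1 ≤ H0 := ok.H0_1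
  have htH : 1 / H0 ≤ t := by
    rw [ht, Real.exp_neg, one_div]
    exact inv_anti₀ (Real.exp_pos _) ok.H0_ge
  have hr4 := le_rr hL3
  have hee : e ≤ R ^ 2 * Real.exp (-(8 * L)) := by
    rw [he, div_pow, div_eq_mul_inv]
    gcongr
    rw [Real.exp_neg]
    apply inv_anti₀ (Real.exp_pos _)
    calc Real.exp (8 * L) = Real.exp (4 * L) ^ 2 := by
          rw [← Real.exp_nat_mul]; congr 1; push_cast; ring
      _ ≤ _ := by gcongr
  have hnum := lev_num (K := (Kn : ℝ)) (m := (m : ℝ)) (A2 := A2) (H0 := H0) (kf := t) (θ := t)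
    (M0 := MM L) (S1 := ∑ i, ∫⁻ w, ‖g1 i w‖ₑ ^ 2) (S2 := ∑ i, ∫⁻ w, ‖G i w‖ₑ ^ 2)
    (Sg := ∑ i, ∫⁻ w, gs i w ^ 2) (Sp := ∑ i, ∫⁻ w, ‖G i w‖ₑ ^ (2 * p))
    (N2 := ENNReal.ofReal (2 * (1 / 2) ^ (a : ℕ)) *
      ∫⁻ z in F1, ((T580.Lev.act (X a) z).card : ℝ≥0∞) ^ 2)
    hv0 hvt hL3 hR hp1 hβ2 (le_MM L) hMM1 (Kn := Kn) rfl
    (by
      have := ok.K_le
      rw [show ((2 : ℝ) + 1) * L = 3 * L by ring] at this
      exact this)
    ht0.le ht16
    (by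
      have h1 : 8 * t / H0 ≤ 8 * t := div_le_self (by positivity) hHge
      have h2 : 8 / H0 ^ 2 ≤ 8 * t := by
        have h3 : 1 / H0 ^ 2 ≤ 1 / H0 := by
          apply one_div_le_one_div_of_le hH0pos
          nlinarith
        have h4 : 8 / H0 ^ 2 = 8 * (1 / H0 ^ 2) := by ring
        rw [h4]
        linarith
      have h5 : 2 * t ^ 2 ≤ 2 * t := by nlinarith
      linarith)
    le_rfl hee (by rw [he]; positivity) ok.err hm0 hg1s out.lq2 hgss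
    (out.lq (2 * p) (by linarith))
    (by
      rw [hpow]
      calc 2 * τ * ∫⁻ z in F1, ((T580.Lev.act (X a) z).card : ℝ≥0∞) ^ 2
          ≤ 2 * τ * ∫⁻ z, ((act (X a) z).card : ℝ≥0∞) ^ 2 := by
            gcongr 2 * τ * ?_
            refine (setLIntegral_le_lintegral _ _).trans (lintegral_mono fun z => ?_)
            rw [act_eq]
        _ = 2 * (τ * ∫⁻ z, ((act (X a) z).card : ℝ≥0∞) ^ 2) := by ring
        _ ≤ 2 * (ENNReal.ofReal R * v) := by gcongr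
        _ = _ := by
            rw [ENNReal.ofReal_mul (by norm_num)]
            norm_num
            ring)
  exact hlev.trans hnum

/-- the exceptional parts of one level -/
theorem ana_exc (C0 : ℝ) (k0 B : ℕ) (L : ℝ) (hC0 : 16 ≤ C0) (ok : Num.OK C0 2 k0 B L)
    (hL24 : 24 ≤ L) (ι : Type) [Fintype ι] (s : ι → ℝ) (G : ι → ℝ × ℝ → ℂ) (v : ℝ≥0∞)
    (R Qs e : ℝ) (N0 : ℕ) (K : Fin N0 → Type) [∀ a, Fintype (K a)] (X : ∀ a, Bxs ι (K a))
    (hv0 : v ≠ 0) (hvt : v ≠ ⊤) (hR : 1 ≤ R) (hRL : R ≤ L ^ k0)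
    (out : Out s G v R (Num.H0 k0 L) (Real.exp (-(C0 * L))) Qs e (Num.H1 2 k0 L) (Num.m k0 L)
      N0 K X) (a : Fin N0) (D : Set (ℝ × ℝ))
    (hDv : ENNReal.ofReal ((1 / 2) ^ (a : ℕ)) * volume D ≤
      ENNReal.ofReal (R * (2 : ℝ) ^ (-((Num.m k0 L : ℝ) / R))) * v) :
    (ENNReal.ofReal (2 * (1 / 2) ^ (a : ℕ)) * ((Num.K 2 L : ℝ≥0∞)⁻¹ *
        ∫⁻ z, ((act (X a) z).card : ℝ≥0∞) ^ 2)) ^ (3 / 4 : ℝ) *
        (∑ i, ∫⁻ w, ‖G i w‖ₑ ^ 4) ^ (1 / 4 : ℝ) ≤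
      ENNReal.ofReal (Real.exp (-(L / 2)) * (512 * R ^ 2 * Real.exp (-(L / 8)))) * v ∧
    (ENNReal.ofReal (2 * (1 / 2) ^ (a : ℕ)) *
      (volume (D ∪ T580.Ana.Uns (X a) (2 * Num.m k0 L * Num.K 2 L * Num.del C0 2 k0 L)) ^ (1 / 2 : ℝ) *
        (∫⁻ z, ((act (X a) z).card : ℝ≥0∞) ^ 2) ^ (1 / 2 : ℝ))) ^ (3 / 4 : ℝ) *
        (∑ i, ∫⁻ w, ‖G i w‖ₑ ^ 4) ^ (1 / 4 : ℝ) ≤
      ENNReal.ofReal (Real.exp (-(L / 2)) * (512 * R ^ 2 * Real.exp (-(L / 8)))) * v := by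
  have hL3 : 3 ≤ L := ok.L3
  have hL0 : 0 < L := by linarith
  set m := Num.m k0 L with hm
  set Kn := Num.K 2 L with hKn
  set A2 := Num.A2 2 L with hA2
  set Ac := Num.Ac 2 k0 L with hAc
  set δ := Num.del C0 2 k0 L with hδ
  set H0 := Num.H0 k0 L with hH0
  set t := Real.exp (-(C0 * L)) with ht
  set lg := Real.log (m + 3) with hlg
  have ht0 : 0 < t := Real.exp_pos _
  have ht1 : t ≤ 1 := Real.exp_le_one_iff.2 (by nlinarith)
  have ht16 : t ≤ Real.exp (-(16 * L)) := Real.exp_le_exp.2 (by nlinarith)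
  have hθs : 2 * (m : ℝ) * Kn * δ ≤ t / 2 := ok.del_le
  have hH0pos : 0 < H0 := Real.exp_pos _
  set τ := ENNReal.ofReal ((1 / 2) ^ (a : ℕ)) with hτ
  have hpow : ENNReal.ofReal (2 * (1 / 2) ^ (a : ℕ)) = 2 * τ := by
    rw [ENNReal.ofReal_mul (by norm_num), hτ]
    norm_num
  have hm0 : (0 : ℝ) ≤ m := by positivity
  have hK0 : (0 : ℝ) ≤ Kn := by positivity
  have hδ0 : 0 ≤ δ := ok.del_pos.le
  have hθ0 : 0 ≤ 2 * (m : ℝ) * Kn * δ := by positivity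
  have hθh : 2 * (m : ℝ) * Kn * δ ≤ 1 / 2 := by linarith
  set Dx := D ∪ T580.Ana.Uns (X a) (2 * m * Kn * δ) with hDx
  have hR0 : 0 < R := by linarith
  have hN2 : τ * ∫⁻ z, ((act (X a) z).card : ℝ≥0∞) ^ 2 ≤ ENNReal.ofReal R * v := out.sq a
  have hKge : Real.exp (2 * L) ≤ (Kn : ℝ) := ok.K_ge
  set sA : ℝ := (2 : ℝ) ^ (-((m : ℝ) / R)) with hsA
  have hsA0 : 0 ≤ sA := by positivity
  have hsA1 : sA ≤ Real.exp (-(16 * L)) := by
    have h1 : 24 * L ≤ (m : ℝ) / R := by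
      rw [le_div_iff₀ hR0]
      calc 24 * L * R ≤ L * L * L ^ k0 := by gcongr
        _ = L ^ (k0 + 2) := by ring
        _ ≤ L ^ (2 * k0 + 2) := pow_le_pow_right₀ (by linarith) (by omega)
        _ ≤ m := ok.m_ge
    have h2 : (2 / 3 : ℝ) ≤ Real.log 2 := by linarith [Real.log_two_gt_d9]
    rw [hsA, Real.rpow_def_of_pos (by norm_num)]
    apply Real.exp_le_exp.2
    nlinarith
  have hbig := exc_num (K := (Kn : ℝ)) (t := 2 * (m : ℝ) * Kn * δ) (s := sA)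
    (T := ENNReal.ofReal (2 * (1 / 2) ^ (a : ℕ)) *
      ((Kn : ℝ≥0∞)⁻¹ * ∫⁻ z, ((act (X a) z).card : ℝ≥0∞) ^ 2)) (N1 := 0) (N2 := 0)
    hv0 hvt hR hL3 hKge (by linarith) hsA1 hθ0 hsA0
    (by
      have hKpos : (0 : ℝ) < Kn := (Real.exp_pos _).trans_le hKge
      rw [hpow]
      calc 2 * τ * ((Kn : ℝ≥0∞)⁻¹ * ∫⁻ z, ((act (X a) z).card : ℝ≥0∞) ^ 2)
          = 2 * (Kn : ℝ≥0∞)⁻¹ * (τ * ∫⁻ z, ((act (X a) z).card : ℝ≥0∞) ^ 2) := by ring
        _ ≤ 2 * (Kn : ℝ≥0∞)⁻¹ * (ENNReal.ofReal R * v) := by gcongr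
        _ = ENNReal.ofReal (2 * R / Kn) * v := by
            rw [div_eq_mul_inv, ENNReal.ofReal_mul (by positivity), ENNReal.ofReal_mul (by norm_num),
              ENNReal.ofReal_inv_of_pos hKpos, ENNReal.ofReal_natCast]
            norm_num
            ring
        _ ≤ _ := le_self_add)
    zero_le zero_le out.lq4
  have hsmall := exc_num (K := (Kn : ℝ)) (t := 2 * (m : ℝ) * Kn * δ) (s := sA)
    (T := ENNReal.ofReal (2 * (1 / 2) ^ (a : ℕ)) * (volume Dx ^ (1 / 2 : ℝ) *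
        (∫⁻ z, ((act (X a) z).card : ℝ≥0∞) ^ 2) ^ (1 / 2 : ℝ))) (N1 := τ * volume Dx)
      (N2 := τ * ∫⁻ z, ((act (X a) z).card : ℝ≥0∞) ^ 2)
    hv0 hvt hR hL3 hKge (by linarith) hsA1 hθ0 hsA0
    (by
      rw [hpow]
      refine le_trans (le_of_eq ?_) le_add_self
      rw [ENNReal.mul_rpow_of_nonneg _ _ (by norm_num : (0:ℝ) ≤ 1 / 2),
        ENNReal.mul_rpow_of_nonneg _ _ (by norm_num : (0:ℝ) ≤ 1 / 2)]
      have hτ2 : τ ^ (1 / 2 : ℝ) * τ ^ (1 / 2 : ℝ) = τ := by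
        rw [← ENNReal.rpow_add_of_nonneg _ _ (by norm_num) (by norm_num)]
        norm_num
      calc 2 * τ * (volume Dx ^ (1 / 2 : ℝ) *
            (∫⁻ z, ((act (X a) z).card : ℝ≥0∞) ^ 2) ^ (1 / 2 : ℝ))
          = 2 * (τ ^ (1 / 2 : ℝ) * τ ^ (1 / 2 : ℝ)) * (volume Dx ^ (1 / 2 : ℝ) *
            (∫⁻ z, ((act (X a) z).card : ℝ≥0∞) ^ 2) ^ (1 / 2 : ℝ)) := by rw [hτ2]
        _ = _ := by ring)
    (by
      have hu := T580.Ana.uns_vol (out.disj a) hθ0 hθh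
      calc τ * volume Dx ≤ τ * (volume D + volume (T580.Ana.Uns (X a) (2 * m * Kn * δ))) := by
            gcongr
            exact measure_union_le _ _
        _ ≤ τ * (volume D + ENNReal.ofReal (8 * (2 * m * Kn * δ)) *
            ∫⁻ z, ((act (X a) z).card : ℝ≥0∞) ^ 2) := by
            gcongr
            refine hu.trans (le_of_eq ?_)
            simp only [act_eq]
        _ = τ * volume D + ENNReal.ofReal (8 * (2 * m * Kn * δ)) *
            (τ * ∫⁻ z, ((act (X a) z).card : ℝ≥0∞) ^ 2) := by ring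
        _ ≤ ENNReal.ofReal (R * sA) * v + ENNReal.ofReal (8 * (2 * m * Kn * δ)) *
            (ENNReal.ofReal R * v) := by gcongr
        _ = _ := by
            rw [ENNReal.ofReal_add (by positivity) (by positivity),
              ENNReal.ofReal_mul (p := 8 * (2 * (m : ℝ) * Kn * δ)) (by positivity)]
            ring)
    hN2 out.lq4
  exact ⟨hbig, hsmall⟩

/-- one level, all numbers -/
theorem ana_level : ∃ c0 : ℝ, 0 < c0 ∧ c0 ≤ 1 / 2 ∧
    ∀ (C0 : ℝ) (k0 B : ℕ) (L : ℝ), 16 ≤ C0 → Num.OK C0 2 k0 B L → 24 ≤ L →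
    ∀ (ι : Type) [Fintype ι] (s : ι → ℝ) (G : ι → ℝ × ℝ → ℂ) (v : ℝ≥0∞) (R Qs e : ℝ) (N0 : ℕ)
      (K : Fin N0 → Type) [∀ a, Fintype (K a)] (X : ∀ a, Bxs ι (K a)),
      v ≠ 0 → v ≠ ⊤ → 1 ≤ R → R ≤ L ^ k0 → Num.Q k0 L * Real.exp (-(C0 * L)) ≤ Qs →
      e = (R / 2 ^ rr L) ^ 2 →
      Out s G v R (Num.H0 k0 L) (Real.exp (-(C0 * L))) Qs e (Num.H1 2 k0 L) (Num.m k0 L) N0 K X →
      ∀ f : ℝ × ℝ → ℂ, Measurable f → (∀ z, ‖f z‖ ≤ 1) →
        volume {z | f z ≠ 0} ≤ ENNReal.ofReal (Real.exp (-L)) * v → ∀ a : Fin N0,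
        ∫⁻ z, Wa (Num.H0 k0 L) (fun w => ‖f w‖ₑ * ‖T580.Lev.Gz (X a) G z w‖ₑ) z ≤
          ENNReal.ofReal (Real.exp (-(L / 2)) *
            epsL R (Real.log (Num.m k0 L + 3) / c0) L) * v := by
  obtain ⟨c0, hc0, hc0h, lev⟩ := ana_lev
  refine ⟨c0, hc0, hc0h, ?_⟩
  intro C0 k0 B L hC0 ok hL24 ι _ s G v R Qs e N0 K _ X hv0 hvt hR hRL hQs he out f hf hf1 hfv a
  obtain ⟨D, hDm, hDv, hDa⟩ := out.arc a
  have hgd := lev C0 k0 B L hC0 ok hL24 ι s G v R Qs e N0 K X hv0 hvt hR hRL hQs he out a D hDm hDa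
  have hex := ana_exc C0 k0 B L hC0 ok hL24 ι s G v R Qs e N0 K X hv0 hvt hR hRL out a D hDv
  have hL3 : 3 ≤ L := ok.L3
  have hL0 : 0 < L := by linarith
  set m := Num.m k0 L with hm
  set Kn := Num.K 2 L with hKn
  set A2 := Num.A2 2 L with hA2
  set Ac := Num.Ac 2 k0 L with hAc
  set δ := Num.del C0 2 k0 L with hδ
  set H0 := Num.H0 k0 L with hH0
  set t := Real.exp (-(C0 * L)) with ht
  set lg := Real.log (m + 3) with hlg
  have ht0 : 0 < t := Real.exp_pos _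
  have ht1 : t ≤ 1 := Real.exp_le_one_iff.2 (by nlinarith)
  have ht16 : t ≤ Real.exp (-(16 * L)) := Real.exp_le_exp.2 (by nlinarith)
  set p := Real.log (m + 3) / c0 with hp
  set Dx := D ∪ T580.Ana.Uns (X a) (2 * m * Kn * δ) with hDx
  have hDxm : MeasurableSet Dx := hDm.union (T580.Ana.uns_meas _ _)
  have hH0pos : 0 < H0 := Real.exp_pos _
  obtain ⟨B', hB'⟩ := out.bG
  have hKne : Kn ≠ 0 := by
    intro h
    have := ok.K_ge
    rw [← hKn, h] at this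
    simp only [Nat.cast_zero] at this
    linarith [Real.exp_pos (2 * L)]
  have hocc : ∀ k, ∀ w ∈ (X a).box k, volume {t | t ∈ Ioc w.2 (w.2 + H0) ∧
      G ((X a).tb k) (w.1, t) ≠ 0} ≤ ENNReal.ofReal ((2 * (1 / 2) ^ (a : ℕ)) * H0) := by
    intro k w hw
    refine (out.occ a k w hw).trans (ENNReal.ofReal_le_ofReal (le_of_eq ?_))
    ring
  have hsplit := level_split (X := X a) out.mG hB' hH0pos (a := 2 * (1 / 2) ^ (a : ℕ))
    (by positivity) hocc hf hf1 (M0 := MM L) hKne hDxm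
  have hgood : volume {z | f z ≠ 0} ^ (1 / 2 : ℝ) * (∫⁻ z in {z | MM L ≤ (act (X a) z).card ∧
      (act (X a) z).card ≤ Kn ∧ z ∉ Dx},
      Wa H0 (fun w => ‖T580.Lev.Gz (X a) G z w‖ₑ ^ 2) z) ^ (1 / 2 : ℝ) ≤
      ENNReal.ofReal (Real.exp (-(L / 2)) *
        (40 * R ^ 2 * p ^ 2 * Real.exp (-(L / (40 * p))))) * v := by
    calc _ ≤ (ENNReal.ofReal (Real.exp (-L)) * v) ^ (1 / 2 : ℝ) *
          (ENNReal.ofReal ((40 * R ^ 2 * p ^ 2 * Real.exp (-(L / (40 * p)))) ^ 2) * v) ^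
            (1 / 2 : ℝ) := by gcongr
      _ = ENNReal.ofReal (√(Real.exp (-L)) *
          (40 * R ^ 2 * p ^ 2 * Real.exp (-(L / (40 * p))))) * v :=
          half_mul (Real.exp_pos _).le (by positivity) hv0 hvt
      _ = _ := by
          congr 3
          rw [← Real.exp_half]
          congr 1
          ring
  have hfew := few_num (M0 := MM L) hv0 hvt hR hL0.le (MM_le hL0.le) hfv out.lq4
  refine hsplit.trans ?_
  refine (add_le_add (add_le_add (add_le_add hgood hfew) hex.1) hex.2).trans (le_of_eq ?_)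
  rw [← add_mul, ← add_mul, ← add_mul, ← ENNReal.ofReal_add (by positivity) (by positivity),
    ← ENNReal.ofReal_add (by positivity) (by positivity),
    ← ENNReal.ofReal_add (by positivity) (by positivity)]
  congr 2
  rw [epsL]
  ring

theorem meas_Wa_Gz {ι κ : Type} [Fintype ι] [Fintype κ] (X : Bxs ι κ) {G : ι → ℝ × ℝ → ℂ}
    (hG : ∀ i, Measurable (G i)) {f : ℝ × ℝ → ℂ} (hf : Measurable f) (H : ℝ) :
    Measurable fun z => Wa H (fun w => ‖f w‖ₑ * ‖T580.Lev.Gz X G z w‖ₑ) z := by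
  have h0 : Measurable (Function.uncurry fun z w => T580.Lev.Gz X G z w) := by
    have hact : ∀ i, MeasurableSet {z | i ∈ T580.Lev.act X z} := by
      intro i
      have := meas_mem_act X i
      simp only [← act_eq] at this
      exact this
    exact H371.act_sum_meas hact (F := fun i w => G i (X.tilt i w))
      fun i => (hG i).comp (T580.Lev.tilt_meas X i)
  have hΦ : Measurable (Function.uncurry fun z w => ‖f w‖ₑ * ‖T580.Lev.Gz X G z w‖ₑ) :=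
    (hf.comp measurable_snd).enorm.mul h0.enorm
  have h1 : (fun z => Wa H (fun w => ‖f w‖ₑ * ‖T580.Lev.Gz X G z w‖ₑ) z) = fun z =>
      ENNReal.ofReal (1 / H) * ∫⁻ v in Ioc 0 H,
        ‖f (z.1, z.2 + v)‖ₑ * ‖T580.Lev.Gz X G z (z.1, z.2 + v)‖ₑ := by
    funext z
    exact H371.Wa_eq z
  rw [h1]
  refine Measurable.const_mul ?_ _
  exact Measurable.lintegral_prod_right' (f := fun (p : (ℝ × ℝ) × ℝ) =>
    ‖f (p.1.1, p.1.2 + p.2)‖ₑ * ‖T580.Lev.Gz X G p.1 (p.1.1, p.1.2 + p.2)‖ₑ)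
    (hΦ.comp (measurable_fst.prodMk H371.sh_meas))

/-- the loss of one level is small -/
theorem eps_le {c0 C0 L R : ℝ} {c k0 B : ℕ} (hc0 : 0 < c0) (hk : 2 * c + 4 ≤ k0)
    (hC : 1152 + 40 / c0 ^ 2 + 40 / c0 ≤ C0) (ok : Num.OK C0 2 k0 B L) (hR : 1 ≤ R)
    (hRL : R ≤ L ^ c) :
    epsL R (Real.log (Num.m k0 L + 3) / c0) L * L ^ B ≤ 2 := by
  have hL3 : 3 ≤ L := ok.L3
  have hL0 : 0 < L := by linarith
  have hL1 : 1 ≤ L := by linarith
  have hR0 : 0 < R := by linarith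
  set lg := Real.log (Num.m k0 L + 3) with hlg
  have hlg1 : 1 ≤ lg := by
    rw [hlg, Real.le_log_iff_exp_le (by positivity)]
    have h1 := Real.exp_one_lt_d9
    have h2 : (1 : ℝ) ≤ Num.m k0 L := by exact_mod_cast ok.m1
    linarith
  have hlg0 : 0 < lg := by linarith
  have p1 : 0 < 40 / c0 ^ 2 := by positivity
  have p2 : 0 < 40 / c0 := by positivity
  have hC0 : 0 < C0 := by linarith
  have hR2 : R ^ 2 ≤ L ^ k0 := by
    calc R ^ 2 ≤ (L ^ c) ^ 2 := by gcongr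
      _ = L ^ (c * 2) := (pow_mul _ _ _).symm
      _ ≤ L ^ k0 := pow_le_pow_right₀ hL1 (by omega)
  have hRR : R ≤ R ^ 2 := by nlinarith
  have hB0 : 0 ≤ L ^ B := by positivity
  have h1 : 40 * R ^ 2 * (lg / c0) ^ 2 * Real.exp (-(L / (40 * (lg / c0)))) ≤
      Num.P C0 k0 L * lg ^ k0 * Real.exp (-(L / C0 / lg)) := by
    have e1 : Real.exp (-(L / (40 * (lg / c0)))) ≤ Real.exp (-(L / C0 / lg)) := by
      apply Real.exp_le_exp.2
      have : L / C0 / lg ≤ L / (40 * (lg / c0)) := by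
        rw [div_div]
        apply div_le_div_of_nonneg_left hL0.le (by positivity)
        calc 40 * (lg / c0) = 40 / c0 * lg := by ring
          _ ≤ C0 * lg := by
              gcongr
              linarith
      linarith
    have e2 : lg ^ 2 ≤ lg ^ k0 := pow_le_pow_right₀ hlg1 (by omega)
    calc 40 * R ^ 2 * (lg / c0) ^ 2 * Real.exp (-(L / (40 * (lg / c0))))
        = (40 / c0 ^ 2) * R ^ 2 * lg ^ 2 * Real.exp (-(L / (40 * (lg / c0)))) := by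
          field_simp
      _ ≤ C0 * L ^ k0 * lg ^ k0 * Real.exp (-(L / C0 / lg)) := by
          gcongr
          linarith
      _ = _ := by unfold Num.P; ring
  have h2 : 128 * R * Real.exp (-(L / 8)) + 1024 * R ^ 2 * Real.exp (-(L / 8)) ≤
      Num.P C0 k0 L * Real.exp (-(L / C0)) := by
    have e1 : Real.exp (-(L / 8)) ≤ Real.exp (-(L / C0)) := by
      apply Real.exp_le_exp.2
      have : L / C0 ≤ L / 8 := by
        apply div_le_div_of_nonneg_left hL0.le (by norm_num)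
        linarith
      linarith
    calc 128 * R * Real.exp (-(L / 8)) + 1024 * R ^ 2 * Real.exp (-(L / 8))
        ≤ 128 * R ^ 2 * Real.exp (-(L / 8)) + 1024 * R ^ 2 * Real.exp (-(L / 8)) := by gcongr
      _ = 1152 * R ^ 2 * Real.exp (-(L / 8)) := by ring
      _ ≤ C0 * L ^ k0 * Real.exp (-(L / C0)) := by
          gcongr
          linarith
      _ = _ := by unfold Num.P; ring
  have g1 := ok.gain_log
  have g2 := ok.gain_exp
  rw [← hlg] at g1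
  calc epsL R (lg / c0) L * L ^ B = (40 * R ^ 2 * (lg / c0) ^ 2 *
        Real.exp (-(L / (40 * (lg / c0)))) + (128 * R * Real.exp (-(L / 8)) +
          1024 * R ^ 2 * Real.exp (-(L / 8)))) * L ^ B := by
        rw [epsL]
        ring
    _ ≤ (Num.P C0 k0 L * lg ^ k0 * Real.exp (-(L / C0 / lg)) +
          Num.P C0 k0 L * Real.exp (-(L / C0))) * L ^ B := by gcongr
    _ = Num.P C0 k0 L * lg ^ k0 * Real.exp (-(L / C0 / lg)) * L ^ B +
          Num.P C0 k0 L * Real.exp (-(L / C0)) * L ^ B := by ring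
    _ ≤ 1 + 1 := add_le_add g1 g2
    _ = 2 := by norm_num

/-- **the analytic side** -/
theorem stAna : StAna := by
  obtain ⟨c0, hc0, hc0h, lev⟩ := ana_level
  intro c
  set k0 := 2 * c + 4 with hk0
  set C0 : ℝ := 1152 + 40 / c0 ^ 2 + 40 / c0 with hC0
  have p1 : 0 < 40 / c0 ^ 2 := by positivity
  have p2 : 0 < 40 / c0 := by positivity
  have hC016 : 16 ≤ C0 := by linarith
  refine ⟨4 * k0 + 14, fun B => ?_⟩
  obtain ⟨L0, hL0⟩ := eventually_atTop.1 (Num.ok C0 2 (by linarith) (by norm_num) k0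
    (B + (4 * k0 + 12)))
  refine ⟨max L0 24, le_max_of_le_right (by norm_num), fun L hL => ?_⟩
  have ok := hL0 L ((le_max_left _ _).trans hL)
  have hL24 : 24 ≤ L := (le_max_right _ _).trans hL
  have hL3 : 3 ≤ L := ok.L3
  have hLpos : 0 < L := by linarith
  have hL1 : 1 ≤ L := by linarith
  have hH0pos : 0 < Num.H0 k0 L := Real.exp_pos _
  have hpw : ∀ i j : ℕ, i ≤ j → L ^ i ≤ L ^ j := fun i j h => pow_le_pow_right₀ hL1 h
  refine ⟨Num.H0 k0 L, Real.exp (-(C0 * L)), Num.H1 2 k0 L, rr L, Num.m k0 L, ?_, ?_,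
    Real.exp_pos _, Real.exp_le_one_iff.2 (by nlinarith), L_le_rr hL3,
    by linarith [ok.H1_4], ok.m1, ?_, ?_⟩
  · unfold Num.H0
    rw [← Real.exp_zero]
    exact Real.exp_lt_exp.2 (by positivity)
  · unfold Num.H0
    calc L ^ c ≤ L ^ (4 * k0 + 12) := hpw _ _ (by omega)
      _ ≤ L ^ (4 * k0 + 12) + 1 := by linarith
      _ ≤ _ := Real.add_one_le_exp _
  · have h1 : L ^ c ≤ Real.exp (L ^ (4 * k0 + 12)) := by
      calc L ^ c ≤ L ^ (4 * k0 + 12) := hpw _ _ (by omega)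
        _ ≤ L ^ (4 * k0 + 12) + 1 := by linarith
        _ ≤ _ := Real.add_one_le_exp _
    have h2 : Num.H1 2 k0 L ≤ Real.exp (L ^ (4 * k0 + 12)) :=
      ok.H1_le.trans (Real.exp_le_exp.2 (hpw _ _ (by omega)))
    have h3 : 0 ≤ Num.H1 2 k0 L := by linarith [ok.H1_4]
    calc L ^ c * Num.H0 k0 L * Num.H1 2 k0 L
        ≤ Real.exp (L ^ (4 * k0 + 12)) * Real.exp (L ^ (4 * k0 + 12)) *
          Real.exp (L ^ (4 * k0 + 12)) := by
          have h4 : Num.H0 k0 L = Real.exp (L ^ (4 * k0 + 12)) := rfl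
          rw [h4]
          gcongr
      _ = Real.exp (3 * L ^ (4 * k0 + 12)) := by
          rw [← Real.exp_add, ← Real.exp_add]
          congr 1
          ring
      _ ≤ _ := by
          apply Real.exp_le_exp.2
          calc 3 * L ^ (4 * k0 + 12) ≤ L * L ^ (4 * k0 + 12) := by gcongr
            _ = L ^ (4 * k0 + 13) := by ring
            _ ≤ _ := hpw _ _ (by omega)
  · intro ι _ s G V R Qs e N0 K _ X hV hR hRL hQs he out f hf hf1 hfv
    have hv0 : ENNReal.ofReal V ≠ 0 := by simpa using hV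
    have hvt : ENNReal.ofReal V ≠ ⊤ := ENNReal.ofReal_ne_top
    have hRk : R ≤ L ^ k0 := hRL.trans (hpw _ _ (by omega))
    have hQs' : Num.Q k0 L * Real.exp (-(C0 * L)) ≤ Qs := by
      refine le_trans ?_ hQs
      rw [div_eq_mul_inv]
      have h1 : Num.Q k0 L ≤ Real.exp (L ^ (4 * k0 + 14)) :=
        Real.exp_le_exp.2 (hpw _ _ (by omega))
      have h2 : Real.exp (-(C0 * L)) ≤ ((2 : ℝ) ^ (rr L + 4))⁻¹ := by
        rw [Real.exp_neg]
        apply inv_anti₀ (by positivity)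
        exact (rr_le hL3).trans (Real.exp_le_exp.2 (by nlinarith))
      gcongr
    have hfv' : volume {z | f z ≠ 0} ≤ ENNReal.ofReal (Real.exp (-L)) * ENNReal.ofReal V := by
      rw [hfv, ENNReal.ofReal_mul (Real.exp_pos _).le]
    have hl := lev C0 k0 (B + (4 * k0 + 12)) L hC016 ok hL24 ι s G (ENNReal.ofReal V) R Qs e N0 K X
      hv0 hvt hR hRk hQs' he out f hf hf1 hfv'
    have hsum := T580.Ana.int_le_levels (s := s) out.s_eq out.mG hH0pos out.lev out.out hf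
      (fun a => meas_Wa_Gz (X a) out.mG hf _)
    set ε := epsL R (Real.log (Num.m k0 L + 3) / c0) L with hε
    have hε0 : 0 ≤ ε := by rw [hε, epsL]; positivity
    have hb : ‖∫ z : ℝ × ℝ, f z * ∑ i, G i (z.1, z.2 - s i * z.1)‖ₑ ≤
        ENNReal.ofReal (N0 * (Real.exp (-(L / 2)) * ε * V)) := by
      refine hsum.trans ((Finset.sum_le_sum fun a _ => hl a).trans (le_of_eq ?_))
      rw [Finset.sum_const, Finset.card_univ, Fintype.card_fin, nsmul_eq_mul,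
        ← ENNReal.ofReal_mul (by positivity), ← ENNReal.ofReal_natCast,
        ← ENNReal.ofReal_mul (by positivity)]
    have hb' : ‖∫ z : ℝ × ℝ, f z * ∑ i, G i (z.1, z.2 - s i * z.1)‖ ≤
        N0 * (Real.exp (-(L / 2)) * ε * V) := by
      rw [← ofReal_norm] at hb
      exact (ENNReal.ofReal_le_ofReal_iff (by positivity)).1 hb
    have hN0 : (N0 : ℝ) ≤ 5 * L ^ (4 * k0 + 12) := by
      have h1 := out.num
      have h2 : Real.log (Num.H0 k0 L) = L ^ (4 * k0 + 12) := Real.log_exp _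
      rw [h2] at h1
      have h3 : 1 ≤ L ^ (4 * k0 + 12) := one_le_pow₀ hL1
      linarith
    have he2 := eps_le hc0 le_rfl le_rfl ok hR hRL
    rw [← hε] at he2
    have hC : (24 : ℝ) ≤ max L0 24 := le_max_right _ _
    calc ‖∫ z : ℝ × ℝ, f z * ∑ i, G i (z.1, z.2 - s i * z.1)‖ * L ^ B
        ≤ N0 * (Real.exp (-(L / 2)) * ε * V) * L ^ B := by gcongr
      _ ≤ 5 * L ^ (4 * k0 + 12) * (Real.exp (-(L / 2)) * ε * V) * L ^ B := by gcongr
      _ = 5 * (ε * L ^ (B + (4 * k0 + 12))) * Real.exp (-(L / 2)) * V := by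
          rw [pow_add]
          ring
      _ ≤ 5 * 2 * Real.exp (-(L / 2)) * V := by gcongr
      _ ≤ max L0 24 * Real.exp (-L / 2) * V := by
          rw [neg_div]
          gcongr
          linarith

end Vale.Agent.P112.H646.Gain
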