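import Vale.Agent.P112.H646.AnaNum2
import Vale.Agent.P112.T580.Ana

/-!
# P112, `[GAIN]`: one level of `Out`, good part + three exceptional parts (helper646)
-/

open MeasureTheory Set Filter
open scoped ENNReal

noncomputable section

namespace Vale.Agent.P112.H646.Gain

open Vale.Agent.P112.H371 (Wa)
open Vale.Agent.P112.H8 (Bxs)
open Vale.Agent.P112.T580 (Lev.Gz Lev.Ri Lev.SafeB Lev.mem_act Lev.Ri_meas)

variable {ι κ : Type} [Fintype ι] [Fintype κ]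

theorem act_eq (X : Bxs ι κ) (z : ℝ × ℝ) : T580.Lev.act X z = act X z := by
  ext i
  rw [T580.Lev.mem_act]
  classical
  simp [act, T580.Lev.Ri]

theorem meas_mem_act (X : Bxs ι κ) (i : ι) : MeasurableSet {z | i ∈ act X z} := by
  have : {z | i ∈ act X z} = T580.Lev.Ri X i := by
    ext z
    rw [mem_ofPred_eq, ← act_eq, T580.Lev.mem_act]
  rw [this]
  exact T580.Lev.Ri_meas X i

theorem meas_card' (X : Bxs ι κ) : Measurable fun z => ((act X z).card : ℝ≥0∞) :=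
  H586.Exc.meas_card (meas_mem_act X)

/-- the amplitudes in the plane -/
def Gp (X : Bxs ι κ) (G : ι → ℝ × ℝ → ℂ) (i : ι) (w : ℝ × ℝ) : ℝ≥0∞ := ‖G i (X.tilt i w)‖ₑ

theorem Gp_meas {X : Bxs ι κ} {G : ι → ℝ × ℝ → ℂ} (hG : ∀ i, Measurable (G i)) (i : ι) :
    Measurable (Gp X G i) := by
  unfold Gp
  exact ((hG i).comp (T580.Lev.tilt_meas X i)).enorm

theorem Gz_le (X : Bxs ι κ) (G : ι → ℝ × ℝ → ℂ) (z w : ℝ × ℝ) :
    ‖T580.Lev.Gz X G z w‖ₑ ≤ ∑ i ∈ act X z, Gp X G i w := by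
  unfold T580.Lev.Gz Gp
  rw [act_eq]
  exact enorm_sum_le _ _

theorem sum_Gp4 {X : Bxs ι κ} {G : ι → ℝ × ℝ → ℂ} (hG : ∀ i, Measurable (G i)) :
    ∑ i, ∫⁻ w, Gp X G i w ^ 4 = ∑ i, ∫⁻ w, ‖G i w‖ₑ ^ 4 := by
  refine Finset.sum_congr rfl fun i _ => ?_
  exact H8.Bxs.lint_tilt (X.s i) (f := fun w => ‖G i w‖ₑ ^ 4) ((hG i).enorm.pow_const 4)

theorem occ_Gp {X : Bxs ι κ} {G : ι → ℝ × ℝ → ℂ} {H a : ℝ}
    (hH : 0 ≤ H) (ha : 0 ≤ a)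
    (h : ∀ k, ∀ w ∈ X.box k, volume {t | t ∈ Ioc w.2 (w.2 + H) ∧ G (X.tb k) (w.1, t) ≠ 0} ≤
      ENNReal.ofReal (a * H)) (S : Set (ℝ × ℝ)) :
    H586.Exc.Occ H (ENNReal.ofReal a) (act X) (Gp X G) S := by
  intro z _ i hi
  rw [← act_eq, T580.Lev.mem_act] at hi
  obtain ⟨k, hk, hw⟩ := hi
  have h1 := h k _ hw
  rw [← ENNReal.ofReal_mul ha]
  refine le_trans (le_of_eq ?_) h1
  have e1 : {t | t ∈ Ioc z.2 (z.2 + H) ∧ Gp X G i (z.1, t) ≠ 0} =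
      (fun t => t - X.s i * z.1) ⁻¹' {t | t ∈ Ioc (X.tilt i z).2 ((X.tilt i z).2 + H) ∧
        G (X.tb k) ((X.tilt i z).1, t) ≠ 0} := by
    ext t
    simp only [mem_ofPred_eq, mem_preimage, Gp, Bxs.tilt, hk, mem_Ioc, ne_eq, enorm_eq_zero]
    constructor
    · rintro ⟨⟨h1, h2⟩, h3⟩
      exact ⟨⟨by linarith, by linarith⟩, h3⟩
    · rintro ⟨⟨h1, h2⟩, h3⟩
      exact ⟨⟨by linarith, by linarith⟩, h3⟩
  rw [e1]
  have := measure_preimage_add_right (volume : Measure ℝ) (-(X.s i * z.1))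
    {t | t ∈ Ioc (X.tilt i z).2 ((X.tilt i z).2 + H) ∧ G (X.tb k) ((X.tilt i z).1, t) ≠ 0}
  simpa [sub_eq_add_neg] using this

/-- **one level**: good part + few tubes + many tubes + small set. -/
theorem level_split {X : Bxs ι κ} {G : ι → ℝ × ℝ → ℂ} (hG : ∀ i, Measurable (G i)) {B : ℝ}
    (hB : ∀ i z, ‖G i z‖ ≤ B) {H a : ℝ} (hH : 0 < H) (ha : 0 ≤ a)
    (hocc : ∀ k, ∀ w ∈ X.box k, volume {t | t ∈ Ioc w.2 (w.2 + H) ∧ G (X.tb k) (w.1, t) ≠ 0} ≤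
      ENNReal.ofReal (a * H)) {f : ℝ × ℝ → ℂ} (hf : Measurable f) (hf1 : ∀ z, ‖f z‖ ≤ 1)
    {M0 K : ℕ} (hK : K ≠ 0) {D : Set (ℝ × ℝ)} (hD : MeasurableSet D) :
    ∫⁻ z, Wa H (fun w => ‖f w‖ₑ * ‖T580.Lev.Gz X G z w‖ₑ) z ≤
      volume {z | f z ≠ 0} ^ (1 / 2 : ℝ) *
        (∫⁻ z in {z | M0 ≤ (act X z).card ∧ (act X z).card ≤ K ∧ z ∉ D},
          Wa H (fun w => ‖T580.Lev.Gz X G z w‖ₑ ^ 2) z) ^ (1 / 2 : ℝ) +
      (M0 * volume {z | f z ≠ 0}) ^ (3 / 4 : ℝ) * (∑ i, ∫⁻ w, ‖G i w‖ₑ ^ 4) ^ (1 / 4 : ℝ) +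
      (ENNReal.ofReal a * ((K : ℝ≥0∞)⁻¹ * ∫⁻ z, ((act X z).card : ℝ≥0∞) ^ 2)) ^ (3 / 4 : ℝ) *
        (∑ i, ∫⁻ w, ‖G i w‖ₑ ^ 4) ^ (1 / 4 : ℝ) +
      (ENNReal.ofReal a * (volume D ^ (1 / 2 : ℝ) *
        (∫⁻ z, ((act X z).card : ℝ≥0∞) ^ 2) ^ (1 / 2 : ℝ))) ^ (3 / 4 : ℝ) *
        (∑ i, ∫⁻ w, ‖G i w‖ₑ ^ 4) ^ (1 / 4 : ℝ) := by
  set F1 : Set (ℝ × ℝ) := {z | M0 ≤ (act X z).card ∧ (act X z).card ≤ K ∧ z ∉ D} with hF1
  set F2 : Set (ℝ × ℝ) := {z | ((act X z).card : ℝ≥0∞) ≤ M0} with hF2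
  set F3 : Set (ℝ × ℝ) := {z | (K : ℝ≥0∞) ≤ (act X z).card} with hF3
  have hm := meas_card' X
  have m2 : MeasurableSet F2 := measurableSet_le hm measurable_const
  have m3 : MeasurableSet F3 := measurableSet_le measurable_const hm
  have hcov : (univ : Set (ℝ × ℝ)) ⊆ F1 ∪ F2 ∪ F3 ∪ D := by
    intro z _
    by_cases h1 : z ∈ D
    · exact Or.inr h1
    by_cases h2 : ((act X z).card : ℝ≥0∞) ≤ M0
    · exact Or.inl (Or.inl (Or.inr h2))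
    by_cases h3 : (K : ℝ≥0∞) ≤ (act X z).card
    · exact Or.inl (Or.inr h3)
    · refine Or.inl (Or.inl (Or.inl ⟨?_, ?_, h1⟩))
      · rw [not_le] at h2
        exact_mod_cast h2.le
      · rw [not_le] at h3
        exact_mod_cast h3.le
  set W : ℝ × ℝ → ℝ≥0∞ := fun z => Wa H (fun w => ‖f w‖ₑ * ‖T580.Lev.Gz X G z w‖ₑ) z with hW
  set W' : ℝ × ℝ → ℝ≥0∞ := fun z => Wa H (fun w => ‖f w‖ₑ * ∑ i ∈ act X z, Gp X G i w) z with hW'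
  have hWW : ∀ z, W z ≤ W' z := by
    intro z
    rw [hW, hW']
    unfold Wa
    simp only
    gcongr
    exact Gz_le X G z _
  have hf1' : ∀ w, ‖f w‖ₑ ≤ 1 := by
    intro w
    rw [← ofReal_norm]
    exact ENNReal.ofReal_le_one.2 (hf1 w)
  have hfe : {w | ‖f w‖ₑ ≠ 0} = {z | f z ≠ 0} := by
    ext w
    simp
  have hsplit : ∫⁻ z, W z ≤ ((∫⁻ z in F1, W z) + (∫⁻ z in F2, W z) + ∫⁻ z in F3, W z) +
      ∫⁻ z in D, W z := by
    calc ∫⁻ z, W z = ∫⁻ z in univ, W z := by rw [Measure.restrict_univ]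
      _ ≤ ∫⁻ z in F1 ∪ F2 ∪ F3 ∪ D, W z := lintegral_mono_set hcov
      _ ≤ _ := by
          refine (lintegral_union_le _ _ _).trans ?_
          gcongr
          refine (lintegral_union_le _ _ _).trans ?_
          gcongr
          exact lintegral_union_le _ _ _
  refine hsplit.trans ?_
  have hGp := Gp_meas (X := X) hG
  have b1 := T580.Ana.good_CS (X := X) hH hG hB hf hf1 F1
  have b2 : ∫⁻ z in F2, W z ≤ _ := (lintegral_mono fun z => hWW z).trans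
    (H586.Exc.exc_low hH (meas_mem_act X) hGp hf.enorm hf1' m2 (M0 := M0) fun z hz => hz)
  have b3 : ∫⁻ z in F3, W z ≤ _ := (lintegral_mono fun z => hWW z).trans
    (H586.Exc.exc_big hH (meas_mem_act X) hGp hf.enorm hf1' m3 (occ_Gp hH.le ha hocc F3)
      (K := K) (by exact_mod_cast hK) (ENNReal.natCast_ne_top K) fun z hz => hz)
  have b4 : ∫⁻ z in D, W z ≤ _ := (lintegral_mono fun z => hWW z).trans
    (H586.Exc.exc_small hH (meas_mem_act X) hGp hf.enorm hf1' hD (occ_Gp hH.le ha hocc D))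
  rw [sum_Gp4 hG] at b2 b3 b4
  rw [hfe] at b2
  refine add_le_add (add_le_add (add_le_add b1 b2) b3) (b4.trans ?_)
  gcongr
  exact Measure.restrict_le_self

end Vale.Agent.P112.H646.Gain
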