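import Vale.Agent.P112.H646.GainDefs
import Vale.Agent.P112.H172.Num

/-!
# P112, `[GAIN]`: the numbers of the analytic side (helper646)
-/

open MeasureTheory Set Filter
open scoped ENNReal

noncomputable section

namespace Vale.Agent.P112.H646.Gain

/-- the exponents of the volume -/
theorem main_alg {v E X Y : ℝ≥0∞} (hv0 : v ≠ 0) (hvt : v ≠ ⊤) {p : ℝ} (hp : 1 < p) :
    (E * v) ^ (1 / 2 : ℝ) * ((X * v) ^ (1 / p) * (Y * v) ^ (1 - 1 / p)) ^ (1 / 2 : ℝ) =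
      E ^ (1 / 2 : ℝ) * (X ^ (1 / p) * Y ^ (1 - 1 / p)) ^ (1 / 2 : ℝ) * v := by
  have hp1 : 0 ≤ 1 / p := by positivity
  have hp2 : 0 ≤ 1 - 1 / p := by
    rw [sub_nonneg, div_le_one (by linarith)]
    exact hp.le
  rw [ENNReal.mul_rpow_of_nonneg _ _ (by norm_num : (0:ℝ) ≤ 1 / 2),
    ENNReal.mul_rpow_of_nonneg _ _ hp1, ENNReal.mul_rpow_of_nonneg _ _ hp2]
  have e1 : X ^ (1 / p) * v ^ (1 / p) * (Y ^ (1 - 1 / p) * v ^ (1 - 1 / p)) =
      (X ^ (1 / p) * Y ^ (1 - 1 / p)) * v := by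
    have : v ^ (1 / p) * v ^ (1 - 1 / p) = v := by
      rw [← ENNReal.rpow_add _ _ hv0 hvt]
      simp
    calc _ = (X ^ (1 / p) * Y ^ (1 - 1 / p)) * (v ^ (1 / p) * v ^ (1 - 1 / p)) := by ring
      _ = _ := by rw [this]
  rw [e1, ENNReal.mul_rpow_of_nonneg _ _ (by norm_num : (0:ℝ) ≤ 1 / 2)]
  have e2 : v ^ (1 / 2 : ℝ) * v ^ (1 / 2 : ℝ) = v := by
    rw [← ENNReal.rpow_add _ _ hv0 hvt]
    norm_num
  calc _ = E ^ (1 / 2 : ℝ) * (X ^ (1 / p) * Y ^ (1 - 1 / p)) ^ (1 / 2 : ℝ) *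
        (v ^ (1 / 2 : ℝ) * v ^ (1 / 2 : ℝ)) := by ring
    _ = _ := by rw [e2]

/-- the main term without the volume, `2 p (1 - β) = 2` -/
theorem main_real {E R P M0 p : ℝ} (hE0 : 0 ≤ E) (hE : E ≤ 2) (hR : 1 ≤ R) (hM : 1 ≤ M0)
    (hp : 1 < p) (hP : P = (R * (2 * p) ^ 3) ^ (2 * p)) :
    (ENNReal.ofReal E * ENNReal.ofReal ((8 * R) ^ 2)) ^ (1 / 2 : ℝ) *
      ((ENNReal.ofReal P) ^ (1 / p) *
        (ENNReal.ofReal M0 ^ (-(1 / (p - 1))) * ENNReal.ofReal (2 * R)) ^ (1 - 1 / p)) ^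
          (1 / 2 : ℝ) ≤
      ENNReal.ofReal (200 * R ^ 3 * p ^ 3 * M0 ^ (-(1 / (2 * p)))) := by
  have hp0 : 0 < p := by linarith
  have hp1 : 0 < p - 1 := by linarith
  have hp1' : 0 ≤ 1 / p := by positivity
  have hp2 : 0 ≤ 1 - 1 / p := by
    rw [sub_nonneg, div_le_one (by linarith)]
    exact hp.le
  have hp3 : 1 - 1 / p ≤ 1 := by linarith
  have hM0 : 0 < M0 := by linarith
  have hR0 : 0 < R := by linarith
  have hX : 0 < R * (2 * p) ^ 3 := by positivity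
  have e1 : (ENNReal.ofReal P) ^ (1 / p) = ENNReal.ofReal ((R * (2 * p) ^ 3) ^ 2) := by
    rw [hP, ENNReal.ofReal_rpow_of_nonneg (Real.rpow_nonneg hX.le _) hp1', ← Real.rpow_mul hX.le]
    congr 1
    rw [show 2 * p * (1 / p) = (2 : ℕ) by push_cast; field_simp]
    exact Real.rpow_natCast _ _
  have e2 : (ENNReal.ofReal M0 ^ (-(1 / (p - 1))) * ENNReal.ofReal (2 * R)) ^ (1 - 1 / p) ≤
      ENNReal.ofReal (M0 ^ (-(1 / p)) * (2 * R)) := by
    rw [ENNReal.mul_rpow_of_nonneg _ _ hp2, ENNReal.ofReal_rpow_of_pos hM0,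
      ENNReal.ofReal_rpow_of_pos (Real.rpow_pos_of_pos hM0 _), ← Real.rpow_mul hM0.le,
      ENNReal.ofReal_rpow_of_pos (by positivity), ← ENNReal.ofReal_mul (by positivity)]
    apply ENNReal.ofReal_le_ofReal
    rw [show -(1 / (p - 1)) * (1 - 1 / p) = -(1 / p) by field_simp]
    gcongr
    calc (2 * R) ^ (1 - 1 / p) ≤ (2 * R) ^ (1 : ℝ) :=
          Real.rpow_le_rpow_of_exponent_le (by linarith) hp3
      _ = 2 * R := Real.rpow_one _
  calc _ ≤ (ENNReal.ofReal E * ENNReal.ofReal ((8 * R) ^ 2)) ^ (1 / 2 : ℝ) *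
        (ENNReal.ofReal ((R * (2 * p) ^ 3) ^ 2) * ENNReal.ofReal (M0 ^ (-(1 / p)) * (2 * R))) ^
          (1 / 2 : ℝ) := by
        rw [e1]
        gcongr
    _ = ENNReal.ofReal ((E * (8 * R) ^ 2) ^ (1 / 2 : ℝ) *
        ((R * (2 * p) ^ 3) ^ 2 * (M0 ^ (-(1 / p)) * (2 * R))) ^ (1 / 2 : ℝ)) := by
        rw [← ENNReal.ofReal_mul hE0, ← ENNReal.ofReal_mul (by positivity),
          ENNReal.ofReal_rpow_of_nonneg (by positivity) (by norm_num),
          ENNReal.ofReal_rpow_of_nonneg (by positivity) (by norm_num),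
          ← ENNReal.ofReal_mul (by positivity)]
    _ ≤ _ := by
        apply ENNReal.ofReal_le_ofReal
        have h1 : (E * (8 * R) ^ 2) ^ (1 / 2 : ℝ) ≤ 12 * R := by
          rw [← Real.sqrt_eq_rpow]
          apply Real.sqrt_le_iff.2
          refine ⟨by positivity, ?_⟩
          nlinarith [sq_nonneg R, mul_le_mul_of_nonneg_right hE (sq_nonneg R)]
        have h2 : ((R * (2 * p) ^ 3) ^ 2 * (M0 ^ (-(1 / p)) * (2 * R))) ^ (1 / 2 : ℝ) ≤
            (8 * R * p ^ 3) * (M0 ^ (-(1 / (2 * p))) * (2 * R)) := by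
          rw [← Real.sqrt_eq_rpow]
          apply Real.sqrt_le_iff.2
          refine ⟨by positivity, ?_⟩
          have h3 : (M0 ^ (-(1 / (2 * p)))) ^ 2 = M0 ^ (-(1 / p)) := by
            rw [← Real.rpow_natCast, ← Real.rpow_mul hM0.le]
            congr 1
            push_cast
            field_simp
          have h4 : 0 < M0 ^ (-(1 / p)) := Real.rpow_pos_of_pos hM0 _
          calc (R * (2 * p) ^ 3) ^ 2 * (M0 ^ (-(1 / p)) * (2 * R))
              ≤ (R * (2 * p) ^ 3) ^ 2 * (M0 ^ (-(1 / p)) * (2 * R) ^ 2) := by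
                have : 2 * R ≤ (2 * R) ^ 2 := by nlinarith
                gcongr
            _ = _ := by
                rw [← h3]
                ring
        calc _ ≤ 12 * R * ((8 * R * p ^ 3) * (M0 ^ (-(1 / (2 * p))) * (2 * R))) := by
              gcongr
          _ = 192 * R ^ 3 * p ^ 3 * M0 ^ (-(1 / (2 * p))) := by ring
          _ ≤ _ := by
              have : 0 ≤ R ^ 3 * p ^ 3 * M0 ^ (-(1 / (2 * p))) := by positivity
              nlinarith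

open Vale.Agent.P112.H172 (Num.OK)

/-- the parameters -/
def rr (L : ℝ) : ℕ := ⌈6 * L⌉₊

def MM (L : ℝ) : ℕ := ⌈Real.exp (L / 10)⌉₊

def pp (c0 : ℝ) (k0 : ℕ) (L : ℝ) : ℝ := Real.log (H172.Num.m k0 L + 3) / c0

theorem rr_le {L : ℝ} (hL : 3 ≤ L) : (2 : ℝ) ^ (rr L + 4) ≤ Real.exp (8 * L) := by
  have h1 : (rr L : ℝ) ≤ 6 * L + 1 := (Nat.ceil_lt_add_one (by linarith)).le
  have h2 : (2 : ℝ) ≤ Real.exp 1 := by linarith [Real.add_one_le_exp (1 : ℝ)]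
  calc (2 : ℝ) ^ (rr L + 4) ≤ Real.exp 1 ^ (rr L + 4) := by gcongr
    _ = Real.exp ((rr L + 4 : ℕ) * 1) := by rw [Real.exp_nat_mul]
    _ ≤ _ := by
        apply Real.exp_le_exp.2
        push_cast
        linarith

theorem le_rr {L : ℝ} (hL : 3 ≤ L) : Real.exp (4 * L) ≤ (2 : ℝ) ^ rr L := by
  have h1 : 6 * L ≤ (rr L : ℝ) := Nat.le_ceil _
  have h2 : (2 / 3 : ℝ) ≤ Real.log 2 := by linarith [Real.log_two_gt_d9]
  calc Real.exp (4 * L) ≤ Real.exp (Real.log 2 * rr L) := by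
        apply Real.exp_le_exp.2
        nlinarith
    _ = (2 : ℝ) ^ (rr L : ℝ) := (Real.rpow_def_of_pos (by norm_num) _).symm
    _ = _ := Real.rpow_natCast _ _

theorem L_le_rr {L : ℝ} (hL : 3 ≤ L) : L ≤ rr L := by
  have h1 : 6 * L ≤ (rr L : ℝ) := Nat.le_ceil _
  linarith

theorem le_MM (L : ℝ) : Real.exp (L / 10) ≤ MM L := Nat.le_ceil _

theorem MM_le {L : ℝ} (hL : 0 ≤ L) : (MM L : ℝ) ≤ 2 * Real.exp (L / 10) := by
  have h1 : (MM L : ℝ) ≤ Real.exp (L / 10) + 1 := (Nat.ceil_lt_add_one (Real.exp_pos _).le).le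
  have h2 : 1 ≤ Real.exp (L / 10) := Real.one_le_exp (by positivity)
  linarith

/-- `√G ≤ 40 R² p² e^(- L / (40 p))` -/
theorem good_real {R p L M0 K t : ℝ} (hL : 3 ≤ L) (hR : 1 ≤ R) (hp : 1 < p)
    (hM : Real.exp (L / 10) ≤ M0) (hK0 : 0 ≤ K) (hK : K ≤ Real.exp (3 * L))
    (ht : t ≤ Real.exp (-(16 * L))) (ht0 : 0 ≤ t) {e : ℝ} (he : e ≤ R ^ 2 * Real.exp (-(8 * L))) :
    K * (18 * t * R) + 2 * (K * (8 * t * (8 * R) ^ 2 + 2 * e)) +
      2 * (200 * R ^ 3 * p ^ 3 * M0 ^ (-(1 / (2 * p)))) ≤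
      (40 * R ^ 2 * p ^ 2 * Real.exp (-(L / (40 * p)))) ^ 2 := by
  have hp0 : 0 < p := by linarith
  have hM0 : 0 < M0 := (Real.exp_pos _).trans_le hM
  have hsq : (40 * R ^ 2 * p ^ 2 * Real.exp (-(L / (40 * p)))) ^ 2 =
      1600 * R ^ 4 * p ^ 4 * Real.exp (-(L / (20 * p))) := by
    rw [mul_pow, ← Real.exp_nat_mul, mul_pow, mul_pow]
    have : ((2 : ℕ) : ℝ) * -(L / (40 * p)) = -(L / (20 * p)) := by
      push_cast
      field_simp
      norm_num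
    rw [this]
    ring
  rw [hsq]
  have h1 : M0 ^ (-(1 / (2 * p))) ≤ Real.exp (-(L / (20 * p))) := by
    calc M0 ^ (-(1 / (2 * p))) ≤ (Real.exp (L / 10)) ^ (-(1 / (2 * p))) := by
          apply Real.rpow_le_rpow_of_nonpos (Real.exp_pos _) hM
          have : 0 < 1 / (2 * p) := by positivity
          linarith
      _ = _ := by
          rw [← Real.exp_mul]
          congr 1
          field_simp
          norm_num
  set w := Real.exp (-(L / (20 * p))) with hw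
  have hw0 : 0 < w := Real.exp_pos _
  have h5 : Real.exp (-(5 * L)) ≤ w := by
    apply Real.exp_le_exp.2
    have : L / (20 * p) ≤ L := by
      rw [div_le_iff₀ (by positivity)]
      nlinarith
    linarith
  have hKt : K * t ≤ Real.exp (-(5 * L)) := by
    calc K * t ≤ Real.exp (3 * L) * Real.exp (-(16 * L)) := by gcongr
      _ = Real.exp (-(13 * L)) := by rw [← Real.exp_add]; congr 1; ring
      _ ≤ _ := Real.exp_le_exp.2 (by linarith)
  have hKe : K * e ≤ R ^ 2 * Real.exp (-(5 * L)) := by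
    calc K * e ≤ K * (R ^ 2 * Real.exp (-(8 * L))) := by gcongr
      _ ≤ Real.exp (3 * L) * (R ^ 2 * Real.exp (-(8 * L))) := by gcongr
      _ = R ^ 2 * (Real.exp (3 * L) * Real.exp (-(8 * L))) := by ring
      _ = _ := by rw [← Real.exp_add]; congr 3; ring
  have hKt0 : 0 ≤ K * t := by positivity
  have hR2 : R ≤ R ^ 2 := by nlinarith
  have a1 : K * (18 * t * R) ≤ 18 * R ^ 2 * w := by
    calc K * (18 * t * R) = 18 * R * (K * t) := by ring
      _ ≤ 18 * R ^ 2 * w := by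
          have := hKt.trans h5
          gcongr
  have a2 : 2 * (K * (8 * t * (8 * R) ^ 2 + 2 * e)) ≤ 1028 * R ^ 2 * w := by
    calc 2 * (K * (8 * t * (8 * R) ^ 2 + 2 * e)) = 1024 * R ^ 2 * (K * t) + 4 * (K * e) := by ring
      _ ≤ 1024 * R ^ 2 * w + 4 * (R ^ 2 * w) := by
          have b1 := hKt.trans h5
          have b2 : K * e ≤ R ^ 2 * w := hKe.trans (by gcongr)
          gcongr
      _ = _ := by ring
  have a3 : 2 * (200 * R ^ 3 * p ^ 3 * M0 ^ (-(1 / (2 * p)))) ≤ 400 * R ^ 3 * p ^ 3 * w := by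
    calc 2 * (200 * R ^ 3 * p ^ 3 * M0 ^ (-(1 / (2 * p)))) ≤ 2 * (200 * R ^ 3 * p ^ 3 * w) := by
          gcongr
      _ = _ := by ring
  have b1 : R ^ 2 ≤ R ^ 4 * p ^ 4 := by
    have c1 : R ^ 2 ≤ R ^ 4 := pow_le_pow_right₀ hR (by norm_num)
    have c2 : 1 ≤ p ^ 4 := one_le_pow₀ hp.le
    have c3 : 0 ≤ R ^ 4 := by positivity
    nlinarith
  have b2 : R ^ 3 * p ^ 3 ≤ R ^ 4 * p ^ 4 := by
    have c1 : R ^ 3 ≤ R ^ 4 := pow_le_pow_right₀ hR (by norm_num)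
    have c2 : p ^ 3 ≤ p ^ 4 := pow_le_pow_right₀ hp.le (by norm_num)
    gcongr
  calc _ ≤ 18 * R ^ 2 * w + 1028 * R ^ 2 * w + 400 * R ^ 3 * p ^ 3 * w := by linarith
    _ = (1046 * R ^ 2 + 400 * (R ^ 3 * p ^ 3)) * w := by ring
    _ ≤ (1046 * (R ^ 4 * p ^ 4) + 400 * (R ^ 4 * p ^ 4)) * w := by gcongr
    _ ≤ 1600 * R ^ 4 * p ^ 4 * w := by
        have : 0 ≤ R ^ 4 * p ^ 4 * w := by positivity
        nlinarith

end Vale.Agent.P112.H646.Gain
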