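import Vale.Agent.P112.H646.AnaNum

/-!
# P112, `[GAIN]`: the numbers of the analytic side, part 2 (helper646)
-/

open MeasureTheory Set Filter
open scoped ENNReal

noncomputable section

namespace Vale.Agent.P112.H646.Gain

theorem half_mul {x y : ℝ} (hx : 0 ≤ x) (hy : 0 ≤ y) {v : ℝ≥0∞} (hv0 : v ≠ 0) (hvt : v ≠ ⊤) :
    (ENNReal.ofReal x * v) ^ (1 / 2 : ℝ) * (ENNReal.ofReal (y ^ 2) * v) ^ (1 / 2 : ℝ) =
      ENNReal.ofReal (√x * y) * v := by
  rw [ENNReal.mul_rpow_of_nonneg _ _ (by norm_num : (0:ℝ) ≤ 1 / 2),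
    ENNReal.mul_rpow_of_nonneg _ _ (by norm_num : (0:ℝ) ≤ 1 / 2),
    ENNReal.ofReal_rpow_of_nonneg hx (by norm_num),
    ENNReal.ofReal_rpow_of_nonneg (by positivity) (by norm_num), ← Real.sqrt_eq_rpow,
    ← Real.sqrt_eq_rpow, Real.sqrt_sq hy, ENNReal.ofReal_mul (Real.sqrt_nonneg _)]
  have e2 : v ^ (1 / 2 : ℝ) * v ^ (1 / 2 : ℝ) = v := by
    rw [← ENNReal.rpow_add _ _ hv0 hvt]
    norm_num
  calc _ = ENNReal.ofReal √x * ENNReal.ofReal y * (v ^ (1 / 2 : ℝ) * v ^ (1 / 2 : ℝ)) := by ring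
    _ = _ := by rw [e2]

theorem tq_mul {x y : ℝ} (hx : 0 ≤ x) (hy : 0 ≤ y) {v : ℝ≥0∞} (hv0 : v ≠ 0) (hvt : v ≠ ⊤) :
    (ENNReal.ofReal x * v) ^ (3 / 4 : ℝ) * (ENNReal.ofReal (y ^ 4) * v) ^ (1 / 4 : ℝ) =
      ENNReal.ofReal (x ^ (3 / 4 : ℝ) * y) * v := by
  rw [ENNReal.mul_rpow_of_nonneg _ _ (by norm_num : (0:ℝ) ≤ 3 / 4),
    ENNReal.mul_rpow_of_nonneg _ _ (by norm_num : (0:ℝ) ≤ 1 / 4),
    ENNReal.ofReal_rpow_of_nonneg hx (by norm_num),
    ENNReal.ofReal_rpow_of_nonneg (by positivity) (by norm_num)]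
  have h4 : (y ^ 4) ^ (1 / 4 : ℝ) = y := by
    rw [← Real.rpow_natCast, ← Real.rpow_mul hy]
    norm_num
  rw [h4, ENNReal.ofReal_mul (Real.rpow_nonneg hx _)]
  have e2 : v ^ (3 / 4 : ℝ) * v ^ (1 / 4 : ℝ) = v := by
    rw [← ENNReal.rpow_add _ _ hv0 hvt]
    norm_num
  calc _ = ENNReal.ofReal (x ^ (3 / 4 : ℝ)) * ENNReal.ofReal y *
        (v ^ (3 / 4 : ℝ) * v ^ (1 / 4 : ℝ)) := by ring
    _ = _ := by rw [e2]

/-- the bound of the good part, with all constants -/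
theorem lev_num {R p L K m A2 H0 kf θ β t e : ℝ} {M0 : ℕ} {v S1 S2 Sg Sp N2 : ℝ≥0∞} {Kn : ℕ}
    (hv0 : v ≠ 0) (hvt : v ≠ ⊤) (hL : 3 ≤ L) (hR : 1 ≤ R) (hp : 1 < p)
    (hβ : 2 * p * (1 - β) = 2)
    (hM : Real.exp (L / 10) ≤ M0) (hM1 : 1 ≤ M0) (hKn : (Kn : ℝ) = K) (hK : K ≤ Real.exp (3 * L))
    (ht0 : 0 ≤ t) (ht : t ≤ Real.exp (-(16 * L)))
    (hkf : 8 * kf / H0 + 8 / H0 ^ 2 + 2 * kf ^ 2 ≤ 18 * t) (hθ : θ ≤ t)
    (he : e ≤ R ^ 2 * Real.exp (-(8 * L))) (he0 : 0 ≤ e)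
    (hE : K * (m * (14 * K ^ 3 / √A2)) ≤ 1) (hm : 0 ≤ m)
    (h1 : S1 ≤ ENNReal.ofReal R * v) (h2 : S2 ≤ ENNReal.ofReal ((8 * R) ^ 2) * v)
    (hg : Sg ≤ ENNReal.ofReal e * v)
    (hSp : Sp ≤ ENNReal.ofReal ((R * (2 * p) ^ 3) ^ (2 * p)) * v)
    (hN : N2 ≤ ENNReal.ofReal (2 * R) * v) :
    Kn * (ENNReal.ofReal (8 * kf / H0 + 8 / H0 ^ 2 + 2 * kf ^ 2) * S1) +
      2 * (Kn * (ENNReal.ofReal (8 * θ) * S2 + 2 * Sg)) +
      2 * ((ENNReal.ofReal (1 + K * (m * (14 * K ^ 3 / √A2))) * S2) ^ (1 / 2 : ℝ) *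
        (Sp ^ (1 / p) * ((M0 : ℝ≥0∞) ^ (-((2 * p * (1 - β) - 1) / (p - 1))) * N2) ^ (1 - 1 / p)) ^
          (1 / 2 : ℝ)) ≤
      ENNReal.ofReal ((40 * R ^ 2 * p ^ 2 * Real.exp (-(L / (40 * p)))) ^ 2) * v := by
  have hp0 : 0 < p := by linarith
  have hp1 : 0 < p - 1 := by linarith
  have hp1' : 0 ≤ 1 / p := by positivity
  have hp2 : 0 ≤ 1 - 1 / p := by
    rw [sub_nonneg, div_le_one (by linarith)]
    exact hp.le
  have hK0 : 0 ≤ K := by rw [← hKn]; positivity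
  have hR0 : 0 < R := by linarith
  have hKE : (Kn : ℝ≥0∞) = ENNReal.ofReal K := by rw [← hKn, ENNReal.ofReal_natCast]
  have hE0 : 0 ≤ K * (m * (14 * K ^ 3 / √A2)) := by positivity
  have hMr : (1 : ℝ) ≤ M0 := by exact_mod_cast hM1
  have hMM : (M0 : ℝ≥0∞) = ENNReal.ofReal (M0 : ℝ) := by rw [ENNReal.ofReal_natCast]
  have b1 : Kn * (ENNReal.ofReal (8 * kf / H0 + 8 / H0 ^ 2 + 2 * kf ^ 2) * S1) ≤
      ENNReal.ofReal (K * (18 * t * R)) * v := by
    calc _ ≤ ENNReal.ofReal K * (ENNReal.ofReal (18 * t) * (ENNReal.ofReal R * v)) := by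
          rw [hKE]; gcongr
      _ = _ := by
          have e1 : ENNReal.ofReal (K * (18 * t * R)) =
              ENNReal.ofReal K * (ENNReal.ofReal (18 * t) * ENNReal.ofReal R) := by
            rw [ENNReal.ofReal_mul hK0, ENNReal.ofReal_mul (p := 18 * t) (by positivity)]
          rw [e1]
          ring
  have b2 : 2 * (Kn * (ENNReal.ofReal (8 * θ) * S2 + 2 * Sg)) ≤
      ENNReal.ofReal (2 * (K * (8 * t * (8 * R) ^ 2 + 2 * e))) * v := by
    calc _ ≤ ENNReal.ofReal 2 * (ENNReal.ofReal K * (ENNReal.ofReal (8 * t) *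
          (ENNReal.ofReal ((8 * R) ^ 2) * v) + ENNReal.ofReal 2 * (ENNReal.ofReal e * v))) := by
          rw [hKE, show (ENNReal.ofReal 2) = 2 by norm_num]; gcongr
      _ = _ := by
          have e1 : ENNReal.ofReal (2 * (K * (8 * t * (8 * R) ^ 2 + 2 * e))) =
              ENNReal.ofReal 2 * (ENNReal.ofReal K * (ENNReal.ofReal (8 * t) *
                ENNReal.ofReal ((8 * R) ^ 2) + ENNReal.ofReal 2 * ENNReal.ofReal e)) := by
            rw [ENNReal.ofReal_mul (p := 2) (by norm_num), ENNReal.ofReal_mul hK0,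
              ENNReal.ofReal_add (by positivity) (by positivity),
              ENNReal.ofReal_mul (p := 8 * t) (by positivity),
              ENNReal.ofReal_mul (p := 2) (q := e) (by norm_num)]
          rw [e1]
          ring
  have b3 : 2 * ((ENNReal.ofReal (1 + K * (m * (14 * K ^ 3 / √A2))) * S2) ^ (1 / 2 : ℝ) *
        (Sp ^ (1 / p) * ((M0 : ℝ≥0∞) ^ (-((2 * p * (1 - β) - 1) / (p - 1))) * N2) ^ (1 - 1 / p)) ^
          (1 / 2 : ℝ)) ≤
      ENNReal.ofReal (2 * (200 * R ^ 3 * p ^ 3 * (M0 : ℝ) ^ (-(1 / (2 * p))))) * v := by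
    have hex : (2 * p * (1 - β) - 1) / (p - 1) = 1 / (p - 1) := by rw [hβ]; norm_num
    rw [hex]
    have hmr := main_real (E := 1 + K * (m * (14 * K ^ 3 / √A2))) (R := R) (M0 := M0) (p := p)
      (by linarith) (by linarith) hR hMr hp rfl
    calc _ ≤ 2 * ((ENNReal.ofReal (1 + K * (m * (14 * K ^ 3 / √A2))) *
          (ENNReal.ofReal ((8 * R) ^ 2) * v)) ^ (1 / 2 : ℝ) *
          ((ENNReal.ofReal ((R * (2 * p) ^ 3) ^ (2 * p)) * v) ^ (1 / p) *
            ((M0 : ℝ≥0∞) ^ (-(1 / (p - 1))) * (ENNReal.ofReal (2 * R) * v)) ^ (1 - 1 / p)) ^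
              (1 / 2 : ℝ)) := by
          gcongr
      _ = 2 * (((ENNReal.ofReal (1 + K * (m * (14 * K ^ 3 / √A2))) *
          ENNReal.ofReal ((8 * R) ^ 2)) ^ (1 / 2 : ℝ) *
          (ENNReal.ofReal ((R * (2 * p) ^ 3) ^ (2 * p)) ^ (1 / p) *
            ((M0 : ℝ≥0∞) ^ (-(1 / (p - 1))) * ENNReal.ofReal (2 * R)) ^ (1 - 1 / p)) ^
              (1 / 2 : ℝ)) * v) := by
          have a1 : ENNReal.ofReal (1 + K * (m * (14 * K ^ 3 / √A2))) *
              (ENNReal.ofReal ((8 * R) ^ 2) * v) = (ENNReal.ofReal (1 + K * (m * (14 * K ^ 3 / √A2)))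
                * ENNReal.ofReal ((8 * R) ^ 2)) * v := (mul_assoc _ _ _).symm
          have a2 : (M0 : ℝ≥0∞) ^ (-(1 / (p - 1))) * (ENNReal.ofReal (2 * R) * v) =
              ((M0 : ℝ≥0∞) ^ (-(1 / (p - 1))) * ENNReal.ofReal (2 * R)) * v :=
            (mul_assoc _ _ _).symm
          rw [a1, a2, main_alg hv0 hvt hp]
      _ ≤ 2 * (ENNReal.ofReal (200 * R ^ 3 * p ^ 3 * (M0 : ℝ) ^ (-(1 / (2 * p)))) * v) := by
          rw [hMM]
          gcongr
      _ = _ := by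
          rw [ENNReal.ofReal_mul (p := 2) (by norm_num), show (ENNReal.ofReal 2) = 2 by norm_num]
          ring
  refine (add_le_add (add_le_add b1 b2) b3).trans ?_
  rw [← add_mul, ← add_mul, ← ENNReal.ofReal_add (by positivity) (by positivity),
    ← ENNReal.ofReal_add (by positivity) (by positivity)]
  gcongr
  exact good_real hL hR hp hM hK0 hK ht ht0 he

/-- few tubes -/
theorem few_num {R L : ℝ} {M0 : ℕ} {v S4 f1 : ℝ≥0∞} (hv0 : v ≠ 0) (hvt : v ≠ ⊤) (hR : 1 ≤ R)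
    (hL : 0 ≤ L)
    (hM : (M0 : ℝ) ≤ 2 * Real.exp (L / 10))
    (hf : f1 ≤ ENNReal.ofReal (Real.exp (-L)) * v)
    (h4 : S4 ≤ ENNReal.ofReal ((64 * R) ^ 4) * v) :
    (M0 * f1) ^ (3 / 4 : ℝ) * S4 ^ (1 / 4 : ℝ) ≤
      ENNReal.ofReal (Real.exp (-(L / 2)) * (128 * R * Real.exp (-(L / 8)))) * v := by
  calc _ ≤ (ENNReal.ofReal (2 * Real.exp (L / 10) * Real.exp (-L)) * v) ^ (3 / 4 : ℝ) *
        (ENNReal.ofReal ((64 * R) ^ 4) * v) ^ (1 / 4 : ℝ) := by
        have e0 : (M0 : ℝ≥0∞) * f1 ≤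
            ENNReal.ofReal (2 * Real.exp (L / 10) * Real.exp (-L)) * v := by
          rw [ENNReal.ofReal_mul (by positivity), mul_assoc]
          refine mul_le_mul' ?_ hf
          rw [← ENNReal.ofReal_natCast]
          exact ENNReal.ofReal_le_ofReal hM
        gcongr
    _ = _ := tq_mul (by positivity) (by positivity) hv0 hvt
    _ ≤ _ := by
        refine mul_le_mul' (ENNReal.ofReal_le_ofReal ?_) le_rfl
        have e1 : (2 * Real.exp (L / 10) * Real.exp (-L)) ^ (3 / 4 : ℝ) ≤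
            2 * Real.exp (-(27 / 40 * L)) := by
          rw [mul_assoc, ← Real.exp_add, Real.mul_rpow (by norm_num) (Real.exp_pos _).le,
            ← Real.exp_mul]
          have e3 : (2 : ℝ) ^ (3 / 4 : ℝ) ≤ 2 := by
            calc (2 : ℝ) ^ (3 / 4 : ℝ) ≤ (2 : ℝ) ^ (1 : ℝ) :=
                  Real.rpow_le_rpow_of_exponent_le (by norm_num) (by norm_num)
              _ = 2 := Real.rpow_one _
          have e4 : (L / 10 + -L) * (3 / 4) = -(27 / 40 * L) := by ring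
          rw [e4]
          gcongr
        have e5 : Real.exp (-(27 / 40 * L)) ≤ Real.exp (-(L / 2)) * Real.exp (-(L / 8)) := by
          rw [← Real.exp_add]
          apply Real.exp_le_exp.2
          linarith
        calc (2 * Real.exp (L / 10) * Real.exp (-L)) ^ (3 / 4 : ℝ) * (64 * R)
            ≤ 2 * (Real.exp (-(L / 2)) * Real.exp (-(L / 8))) * (64 * R) := by
              gcongr
              exact e1.trans (by gcongr)
          _ = _ := by ring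

/-- the exceptional set: `2 R / K + 2 √((R 2^(-m/R) + 8 t R) R) ≤ 8 R e^(-2L)` -/
theorem exc_real {R L K t s : ℝ} (hL : 3 ≤ L) (hR : 1 ≤ R) (hK : Real.exp (2 * L) ≤ K)
    (ht : t ≤ Real.exp (-(16 * L))) (hs : s ≤ Real.exp (-(16 * L))) (ht0 : 0 ≤ t) (hs0 : 0 ≤ s) :
    2 * R / K + 2 * √((R * s + 8 * t * R) * R) ≤ 8 * R * Real.exp (-(2 * L)) := by
  have hR0 : 0 < R := by linarith
  have hK0 : 0 < K := (Real.exp_pos _).trans_le hK
  have h1 : 2 * R / K ≤ 2 * R * Real.exp (-(2 * L)) := by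
    rw [Real.exp_neg, ← div_eq_mul_inv]
    gcongr
  have h2 : √((R * s + 8 * t * R) * R) ≤ 3 * R * Real.exp (-(2 * L)) := by
    apply Real.sqrt_le_iff.2
    refine ⟨by positivity, ?_⟩
    have e1 : Real.exp (-(16 * L)) ≤ Real.exp (-(2 * L)) ^ 2 := by
      rw [← Real.exp_nat_mul]
      apply Real.exp_le_exp.2
      push_cast
      linarith
    calc (R * s + 8 * t * R) * R = R ^ 2 * (s + 8 * t) := by ring
      _ ≤ R ^ 2 * (9 * Real.exp (-(2 * L)) ^ 2) := by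
          gcongr
          linarith
      _ = _ := by ring
  linarith

/-- the exceptional set -/
theorem exc_num {R L K t s : ℝ} {v S4 T N1 N2 : ℝ≥0∞} (hv0 : v ≠ 0) (hvt : v ≠ ⊤) (hR : 1 ≤ R)
    (hL : 3 ≤ L) (hK : Real.exp (2 * L) ≤ K)
    (ht : t ≤ Real.exp (-(16 * L))) (hs : s ≤ Real.exp (-(16 * L))) (ht0 : 0 ≤ t) (hs0 : 0 ≤ s)
    (hT : T ≤ ENNReal.ofReal (2 * R / K) * v +
      2 * (N1 ^ (1 / 2 : ℝ) * N2 ^ (1 / 2 : ℝ)))
    (hN1 : N1 ≤ ENNReal.ofReal (R * s + 8 * t * R) * v) (hN2 : N2 ≤ ENNReal.ofReal R * v)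
    (h4 : S4 ≤ ENNReal.ofReal ((64 * R) ^ 4) * v) :
    T ^ (3 / 4 : ℝ) * S4 ^ (1 / 4 : ℝ) ≤
      ENNReal.ofReal (Real.exp (-(L / 2)) * (512 * R ^ 2 * Real.exp (-(L / 8)))) * v := by
  have hR0 : 0 < R := by linarith
  have hK0 : 0 < K := (Real.exp_pos _).trans_le hK
  have e1 : N1 ^ (1 / 2 : ℝ) * N2 ^ (1 / 2 : ℝ) ≤ ENNReal.ofReal √((R * s + 8 * t * R) * R) * v := by
    calc _ ≤ (ENNReal.ofReal (R * s + 8 * t * R) * v) ^ (1 / 2 : ℝ) *
          (ENNReal.ofReal ((√R) ^ 2) * v) ^ (1 / 2 : ℝ) := by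
          rw [Real.sq_sqrt hR0.le]
          gcongr
      _ = ENNReal.ofReal (√(R * s + 8 * t * R) * √R) * v :=
          half_mul (by positivity) (Real.sqrt_nonneg _) hv0 hvt
      _ = _ := by rw [← Real.sqrt_mul (by positivity)]
  have e2 : T ≤ ENNReal.ofReal (8 * R * Real.exp (-(2 * L))) * v := by
    calc T ≤ ENNReal.ofReal (2 * R / K) * v +
          ENNReal.ofReal 2 * (ENNReal.ofReal √((R * s + 8 * t * R) * R) * v) := by
          refine hT.trans ?_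
          rw [show (ENNReal.ofReal 2) = 2 by norm_num]
          gcongr
      _ = ENNReal.ofReal (2 * R / K + 2 * √((R * s + 8 * t * R) * R)) * v := by
          rw [ENNReal.ofReal_add (by positivity) (by positivity),
            ENNReal.ofReal_mul (p := 2) (by norm_num)]
          ring
      _ ≤ _ := by
          gcongr
          exact exc_real hL hR hK ht hs ht0 hs0
  calc _ ≤ (ENNReal.ofReal (8 * R * Real.exp (-(2 * L))) * v) ^ (3 / 4 : ℝ) *
        (ENNReal.ofReal ((64 * R) ^ 4) * v) ^ (1 / 4 : ℝ) := by gcongr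
    _ = _ := tq_mul (by positivity) (by positivity) hv0 hvt
    _ ≤ _ := by
        refine mul_le_mul' (ENNReal.ofReal_le_ofReal ?_) le_rfl
        have h1 : (8 * R * Real.exp (-(2 * L))) ^ (3 / 4 : ℝ) ≤
            8 * R * Real.exp (-(3 / 2 * L)) := by
          rw [Real.mul_rpow (by positivity) (Real.exp_pos _).le, ← Real.exp_mul]
          have e3 : (8 * R) ^ (3 / 4 : ℝ) ≤ 8 * R := by
            calc (8 * R) ^ (3 / 4 : ℝ) ≤ (8 * R) ^ (1 : ℝ) :=
                  Real.rpow_le_rpow_of_exponent_le (by linarith) (by norm_num)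
              _ = 8 * R := Real.rpow_one _
          have e4 : -(2 * L) * (3 / 4) = -(3 / 2 * L) := by ring
          rw [e4]
          gcongr
        have h2 : Real.exp (-(3 / 2 * L)) ≤ Real.exp (-(L / 2)) * Real.exp (-(L / 8)) := by
          rw [← Real.exp_add]
          apply Real.exp_le_exp.2
          linarith
        calc (8 * R * Real.exp (-(2 * L))) ^ (3 / 4 : ℝ) * (64 * R)
            ≤ 8 * R * (Real.exp (-(L / 2)) * Real.exp (-(L / 8))) * (64 * R) := by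
              gcongr
              exact h1.trans (by gcongr)
          _ = _ := by ring

end Vale.Agent.P112.H646.Gain
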