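import Vale.Agent.P112.H646.Defs

/-!
# P112 [H]: basic facts on boxes (monotonicity, measurability, amplitudes)
-/

open MeasureTheory
open scoped ENNReal

noncomputable section

namespace Vale.Agent.P112.H646

theorem mem_U {ι : Type} {D : Finset (Finset ι)} {i : ι} : i ∈ U D ↔ ∃ C ∈ D, i ∈ C := by
  classical
  unfold U
  simp

theorem near_self {ι : Type} {A : ℝ} {s : ι → ℝ} {P : Finset ι} {i : ι} (hi : i ∈ P) :
    Near A s P i := ⟨i, hi, i, hi, i, hi, by simp⟩

theorem near_mono {ι : Type} {A : ℝ} {s : ι → ℝ} {P P' : Finset ι} (h : P ⊆ P') {k : ι}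
    (hk : Near A s P k) : Near A s P' k := by
  obtain ⟨i, hi, j, hj, i', hi', h'⟩ := hk
  exact ⟨i, h hi, j, h hj, i', h hi', h'⟩

theorem gg_nonneg {ι : Type} (β : ℝ) (P : Finset ι) (c : ι → ℂ) : 0 ≤ gg β P c :=
  Real.rpow_nonneg (Finset.sum_nonneg fun _ _ => Real.rpow_nonneg (norm_nonneg _) _) _

namespace Sys

variable {ι κ : Type} [Fintype ι] [Fintype κ] (Z : Sys ι κ)

theorem bx_mono {θ θ' : ℝ} (h : θ ≤ θ') (b : κ) : Z.bx θ b ⊆ Z.bx θ' b := by
  intro z hz
  obtain ⟨h1, h2, h3, h4⟩ := hz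
  have hl := Z.lam_pos b
  have hh := Z.h_pos b
  have e1 : θ * Z.lam b ≤ θ' * Z.lam b := mul_le_mul_of_nonneg_right h hl.le
  have e2 : θ * Z.h b ≤ θ' * Z.h b := mul_le_mul_of_nonneg_right h hh.le
  exact ⟨by linarith, by linarith, by linarith, by linarith⟩

theorem safe_mono {θ θ' : ℝ} (h : θ ≤ θ') {i : ι} {z : ℝ × ℝ} (hs : Z.Safe θ' i z) :
    Z.Safe θ i z := by
  intro b hb
  rcases hs b hb with h1 | h1
  · exact Or.inl (Z.bx_mono (by linarith) b h1)
  · exact Or.inr fun h2 => h1 (Z.bx_mono h b h2)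

theorem E_mono {A : ℝ} {P : Finset ι} {θ θ' : ℝ} (h : θ ≤ θ') : Z.E A P θ' ⊆ Z.E A P θ := by
  intro z hz k hk
  exact ⟨Z.safe_mono h (hz k hk).1, (hz k hk).2⟩

theorem measurableSet_bx (θ : ℝ) (b : κ) : MeasurableSet (Z.bx θ b) := by
  have h1 : Measurable fun z : ℝ × ℝ => z.1 := measurable_fst
  have h2 : Measurable fun z : ℝ × ℝ => z.2 - Z.s (Z.tb b) * z.1 :=
    measurable_snd.sub (measurable_fst.const_mul _)
  exact (measurableSet_le measurable_const h1).inter
    ((measurableSet_lt h1 measurable_const).inter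
      ((measurableSet_le measurable_const h2).inter (measurableSet_lt h2 measurable_const)))

theorem mem_act {z : ℝ × ℝ} {i : ι} : i ∈ Z.act z ↔ ∃ b, Z.tb b = i ∧ z ∈ Z.bx 0 b := by
  classical
  unfold act
  simp

theorem measurableSet_act (i : ι) : MeasurableSet {z | i ∈ Z.act z} := by
  have : {z | i ∈ Z.act z} = ⋃ b ∈ {b : κ | Z.tb b = i}, Z.bx 0 b := by
    ext z
    simp only [Set.mem_ofPred_eq, Set.mem_iUnion, Z.mem_act, exists_prop]
  rw [this]
  exact MeasurableSet.biUnion (Set.toFinite _).countable fun b _ => Z.measurableSet_bx 0 b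

theorem measurableSet_safe (θ : ℝ) (i : ι) : MeasurableSet {z | Z.Safe θ i z} := by
  have : {z | Z.Safe θ i z} = ⋂ b ∈ {b : κ | Z.tb b = i}, (Z.bx (-θ) b ∪ (Z.bx θ b)ᶜ) := by
    ext z
    simp only [Set.mem_ofPred_eq, Set.mem_iInter, Safe, Set.mem_union, Set.mem_compl_iff]
  rw [this]
  exact MeasurableSet.biInter (Set.toFinite _).countable fun b _ =>
    (Z.measurableSet_bx _ b).union (Z.measurableSet_bx _ b).compl

theorem measurableSet_E (A : ℝ) (P : Finset ι) (θ : ℝ) : MeasurableSet (Z.E A P θ) := by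
  have : Z.E A P θ = ⋂ k ∈ {k : ι | Near A Z.s P k},
      ({z | Z.Safe θ k z} ∩ {z | k ∈ Z.act z ↔ k ∈ P}) := by
    ext z
    simp only [E, Set.mem_ofPred_eq, Set.mem_iInter, Set.mem_inter_iff]
  rw [this]
  refine MeasurableSet.biInter (Set.toFinite _).countable fun k _ =>
    (Z.measurableSet_safe θ k).inter ?_
  by_cases hk : k ∈ P
  · have : {z | k ∈ Z.act z ↔ k ∈ P} = {z | k ∈ Z.act z} := by
      ext z
      simp [hk]
    rw [this]
    exact Z.measurableSet_act k
  · have : {z | k ∈ Z.act z ↔ k ∈ P} = {z | k ∈ Z.act z}ᶜ := by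
      ext z
      simp [hk]
    rw [this]
    exact (Z.measurableSet_act k).compl

theorem measurable_a (i : ι) : Measurable (Z.a i) := by
  classical
  unfold a
  refine Finset.measurable_sum _ fun b _ => ?_
  refine Measurable.ite ?_ measurable_const measurable_const
  by_cases hb : Z.tb b = i
  · simpa [hb] using Z.measurableSet_bx 0 b
  · simp [hb]

theorem measurable_G (P : Finset ι) : Measurable (Z.G P) := by
  unfold G ff
  refine Finset.measurable_sum _ fun i _ => (Z.measurable_a i).mul ?_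
  refine Complex.measurable_exp.comp ?_
  refine measurable_const.mul (Complex.measurable_ofReal.comp ?_)
  exact measurable_fst.const_mul _

theorem measurable_gg (β : ℝ) (P : Finset ι) : Measurable fun z => gg β P fun i => Z.a i z := by
  unfold gg
  refine Measurable.pow_const ?_ _
  exact Finset.measurable_sum _ fun i _ => ((Z.measurable_a i).norm).pow_const _

theorem measurable_phi (β : ℝ) (P : Finset ι) : Measurable (Z.phi β P) := by
  unfold phi
  exact (((Z.measurable_G P).norm.pow_const _).div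
    ((Z.measurable_gg β P).pow_const _)).ennreal_ofReal

theorem measurable_sq (P : Finset ι) : Measurable (Z.sq P) := by
  unfold sq
  exact Finset.measurable_sum _ fun i _ => ((Z.measurable_a i).norm.pow_const _).ennreal_ofReal

/-- the value of the amplitude on a box -/
theorem a_eq (hd : Z.Disj) {b : κ} {z : ℝ × ℝ} (hz : z ∈ Z.bx 0 b) :
    Z.a (Z.tb b) z = Z.val b := by
  classical
  unfold a
  rw [Finset.sum_eq_single b]
  · simp [hz]
  · intro b' _ hb'
    rw [if_neg]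
    rintro ⟨h1, h2⟩
    exact Set.disjoint_left.mp (hd b' b h1 hb') h2 hz
  · simp

theorem a_ne (hd : Z.Disj) {i : ι} {z : ℝ × ℝ} (hi : i ∈ Z.act z) : Z.a i z ≠ 0 := by
  obtain ⟨b, rfl, hz⟩ := Z.mem_act.mp hi
  rw [Z.a_eq hd hz]
  exact Z.val_ne b

theorem a_zero {i : ι} {z : ℝ × ℝ} (hi : i ∉ Z.act z) : Z.a i z = 0 := by
  classical
  unfold a
  refine Finset.sum_eq_zero fun b _ => ?_
  rw [if_neg]
  rintro ⟨h1, h2⟩
  exact hi (Z.mem_act.mpr ⟨b, h1, h2⟩)

theorem sq_mono {P P' : Finset ι} (h : P ⊆ P') (z : ℝ × ℝ) : Z.sq P z ≤ Z.sq P' z :=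
  Finset.sum_le_sum_of_subset h

/-- on `E P θ` every member of `P` is active -/
theorem act_of_E {A θ : ℝ} {P : Finset ι} {z : ℝ × ℝ} (hz : z ∈ Z.E A P θ) {i : ι} (hi : i ∈ P) :
    i ∈ Z.act z := ((hz i (near_self hi)).2).mpr hi

/-- the slopes of two active tubes are different -/
theorem injOn_act {Q : ℝ} (hQ : 0 < Q) (hs : Z.Sep Q) (z : ℝ × ℝ) :
    Set.InjOn Z.s (Z.act z : Set ι) := by
  intro i hi j hj hij
  by_contra hne
  obtain ⟨b, rfl, hb⟩ := Z.mem_act.mp hi
  obtain ⟨b', rfl, hb'⟩ := Z.mem_act.mp hj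
  have h := hs b b' hne ⟨z, Z.bx_mono zero_le_one b hb, Z.bx_mono zero_le_one b' hb'⟩
  rw [hij, sub_self, abs_zero, mul_zero, zero_mul] at h
  linarith

theorem injOn_of_E {A θ Q : ℝ} {P : Finset ι} (hQ : 0 < Q) (hs : Z.Sep Q) {z : ℝ × ℝ}
    (hz : z ∈ Z.E A P θ) : Set.InjOn Z.s (P : Set ι) :=
  (Z.injOn_act hQ hs z).mono fun _ hi => Z.act_of_E hz hi

end Sys

end Vale.Agent.P112.H646
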