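import Vale.Agent.P112.H646.Node

/-!
# P112 [H]: the telescoping sum
-/

open MeasureTheory
open scoped ENNReal

noncomputable section

namespace Vale.Agent.P112.H646

theorem le_gg {ι : Type} {β : ℝ} (hβ : 0 < β) {P : Finset ι} {c : ι → ℂ} {i : ι} (hi : i ∈ P) :
    ‖c i‖ ≤ gg β P c := by
  unfold gg
  have h1 : ‖c i‖ ^ (1 / β) ≤ ∑ j ∈ P, ‖c j‖ ^ (1 / β) :=
    Finset.single_le_sum (f := fun j => ‖c j‖ ^ (1 / β))
      (fun j _ => Real.rpow_nonneg (norm_nonneg _) _) hi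
  calc ‖c i‖ = (‖c i‖ ^ (1 / β)) ^ β := by
        rw [← Real.rpow_mul (norm_nonneg _), one_div_mul_cancel hβ.ne', Real.rpow_one]
    _ ≤ _ := Real.rpow_le_rpow (Real.rpow_nonneg (norm_nonneg _) _) h1 hβ.le

theorem norm_ff_le {ι : Type} (η : ℝ) (s : ι → ℝ) (P : Finset ι) (c : ι → ℂ) (x : ℝ) :
    ‖ff η s P c x‖ ≤ ∑ i ∈ P, ‖c i‖ := by
  unfold ff
  refine (norm_sum_le _ _).trans (Finset.sum_le_sum fun i _ => ?_)
  rw [norm_mul, mul_comm Complex.I, Complex.norm_exp_ofReal_mul_I, mul_one]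

theorem arc_mono {ι : Type} {m : ℕ} {H1 : ℝ} {s : ι → ℝ} {P P' : Finset ι} (h : P' ⊆ P)
    (ha : Arc m H1 s P) : Arc m H1 s P' := fun P'' h'' hc => ha P'' (h''.trans h) hc

namespace Sys

variable {ι κ : Type} [Fintype ι] [Fintype κ] (Z : Sys ι κ)

theorem phi_le {β : ℝ} (hβ : 0 < β) (P : Finset ι) (z : ℝ × ℝ) :
    Z.phi β P z ≤ (P.card : ℝ≥0∞) ^ 3 * Z.sq P z := by
  classical
  unfold phi sq
  rw [← ENNReal.ofReal_sum_of_nonneg (fun i _ => by positivity)]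
  have hc : ((P.card : ℝ≥0∞)) ^ 3 = ENNReal.ofReal ((P.card : ℝ) ^ 3) := by
    rw [ENNReal.ofReal_pow (Nat.cast_nonneg _), ENNReal.ofReal_natCast]
  rw [hc, ← ENNReal.ofReal_mul (by positivity)]
  refine ENNReal.ofReal_le_ofReal ?_
  set M := gg β P fun i => Z.a i z with hM
  have hM0 : 0 ≤ M := gg_nonneg _ _ _
  have h1 : ‖Z.G P z‖ ≤ ∑ i ∈ P, ‖Z.a i z‖ := norm_ff_le _ _ _ _ _
  have h2 : ∑ i ∈ P, ‖Z.a i z‖ ≤ P.card * M := by
    rw [← nsmul_eq_mul]
    exact Finset.sum_le_card_nsmul _ _ _ fun i hi => le_gg hβ (c := fun i => Z.a i z) hi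
  have h3 : (∑ i ∈ P, ‖Z.a i z‖) ^ 2 ≤ P.card * ∑ i ∈ P, ‖Z.a i z‖ ^ 2 := by
    exact sq_sum_le_card_mul_sum_sq
  have hg0 : 0 ≤ ‖Z.G P z‖ := norm_nonneg _
  have h4 : ‖Z.G P z‖ ^ 2 ≤ P.card * ∑ i ∈ P, ‖Z.a i z‖ ^ 2 :=
    (pow_le_pow_left₀ hg0 h1 2).trans h3
  have h5 : ‖Z.G P z‖ ^ 2 ≤ (P.card : ℝ) ^ 2 * M ^ 2 := by
    rw [← mul_pow]
    exact pow_le_pow_left₀ hg0 (h1.trans h2) 2
  rcases hM0.eq_or_lt with h0 | h0
  · rw [← h0]
    simp only [ne_eq, OfNat.ofNat_ne_zero, not_false_eq_true, zero_pow, div_zero]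
    positivity
  · rw [div_le_iff₀ (by positivity)]
    calc ‖Z.G P z‖ ^ 4 = ‖Z.G P z‖ ^ 2 * ‖Z.G P z‖ ^ 2 := by ring
      _ ≤ (P.card * ∑ i ∈ P, ‖Z.a i z‖ ^ 2) * ((P.card : ℝ) ^ 2 * M ^ 2) :=
          mul_le_mul h4 h5 (by positivity) (by positivity)
      _ = _ := by ring

theorem phi_single {β : ℝ} (hβ : 0 < β) (i : ι) (z : ℝ × ℝ) :
    Z.phi β {i} z ≤ Z.sq {i} z := by
  have := Z.phi_le hβ {i} z
  simpa using this

theorem iso_of_E {A θ : ℝ} {P : Finset ι} (hP : P.Nonempty) {z : ℝ × ℝ} (hz : z ∈ Z.E A P θ) :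
    Iso A Z.s P (Z.act z) :=
  ⟨hP, fun _ hi => Z.act_of_E hz hi, fun k hk hn => ((hz k hn).2).mp hk⟩

theorem E_child {A θ θ' : ℝ} {P C : Finset ι} (hC : C ∈ ch A Z.s P) (h : θ' ≤ θ) :
    Z.E A P θ ⊆ Z.E A C θ' := by
  intro z hz k hk
  have hCP := ch_sub hC
  have hk' := near_mono hCP hk
  refine ⟨Z.safe_mono h (hz k hk').1, ?_, fun hkC => Z.act_of_E hz (hCP hkC)⟩
  intro hka
  exact (mem_ch.mp hC).2.2.1.2.2 k ((hz k hk').2.mp hka) hk

theorem measurableSet_act_eq (c : Finset ι) : MeasurableSet {z | Z.act z = c} := by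
  have : {z | Z.act z = c} = ⋂ k : ι, {z | k ∈ Z.act z ↔ k ∈ c} := by
    ext z
    simp only [Set.mem_ofPred_eq, Set.mem_iInter]
    exact Finset.ext_iff
  rw [this]
  refine MeasurableSet.iInter fun k => ?_
  by_cases hk : k ∈ c
  · have : {z | k ∈ Z.act z ↔ k ∈ c} = {z | k ∈ Z.act z} := by
      ext z
      simp [hk]
    rw [this]
    exact Z.measurableSet_act k
  · have : {z | k ∈ Z.act z ↔ k ∈ c} = {z | k ∈ Z.act z}ᶜ := by
      ext z
      simp [hk]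
    rw [this]
    exact (Z.measurableSet_act k).compl

theorem phi_univ {β : ℝ} (hβ : 0 < β) (z : ℝ × ℝ) :
    Z.phi β Finset.univ z = Z.phi β (Z.act z) z := by
  unfold phi G gg ff
  have h1 : ∑ i : ι, Z.a i z * Complex.exp (Complex.I * (Z.η * Z.s i * z.1 : ℝ)) =
      ∑ i ∈ Z.act z, Z.a i z * Complex.exp (Complex.I * (Z.η * Z.s i * z.1 : ℝ)) := by
    refine (Finset.sum_subset (Finset.subset_univ _) fun i _ hi => ?_).symm
    rw [Z.a_zero hi, zero_mul]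
  have h2 : ∑ i : ι, ‖Z.a i z‖ ^ (1 / β) = ∑ i ∈ Z.act z, ‖Z.a i z‖ ^ (1 / β) := by
    refine (Finset.sum_subset (Finset.subset_univ _) fun i _ hi => ?_).symm
    rw [Z.a_zero hi, norm_zero, Real.zero_rpow]
    positivity
  rw [h1, h2]

/-- the number of nodes above one tube is at most `K` -/
theorem sum_sq_le {A : ℝ} (hlam : StLam) (hA : 1 ≤ A) {K : ℕ} (𝒩 : Finset (Finset ι))
    (hN : ∀ P ∈ 𝒩, P.Nonempty ∧ P.card ≤ K) (θ : Finset ι → ℝ) (z : ℝ × ℝ) :
    ∑ P ∈ 𝒩, (Z.E A P (θ P)).indicator (Z.sq P) z ≤ K * Z.sq Finset.univ z := by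
  classical
  have h1 : ∀ P ∈ 𝒩, (Z.E A P (θ P)).indicator (Z.sq P) z =
      ∑ i : ι, if z ∈ Z.E A P (θ P) ∧ i ∈ P then ENNReal.ofReal (‖Z.a i z‖ ^ 2) else 0 := by
    intro P _
    by_cases hz : z ∈ Z.E A P (θ P)
    · rw [Set.indicator_of_mem hz]
      unfold sq
      simp only [hz, true_and]
      rw [Finset.sum_ite_mem, Finset.univ_inter]
    · rw [Set.indicator_of_notMem hz]
      simp [hz]
  rw [Finset.sum_congr rfl h1, Finset.sum_comm]
  unfold sq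
  rw [Finset.mul_sum]
  refine Finset.sum_le_sum fun i _ => ?_
  rw [← Finset.sum_filter, Finset.sum_const, nsmul_eq_mul]
  refine mul_le_mul_left ?_ _
  have hcard : (𝒩.filter fun P => z ∈ Z.E A P (θ P) ∧ i ∈ P).card ≤ (Finset.Icc 1 K).card := by
    refine Finset.card_le_card_of_injOn Finset.card ?_ ?_
    · intro P hP
      simp only [Finset.coe_filter, Set.mem_ofPred_eq] at hP
      have := hN P hP.1
      simp only [Finset.coe_Icc, Set.mem_Icc]
      exact ⟨Finset.card_pos.mpr this.1, this.2⟩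
    · intro P hP P' hP' hcc
      simp only [Finset.coe_filter, Set.mem_ofPred_eq] at hP hP'
      have hi1 := Z.iso_of_E (hN P hP.1).1 hP.2.1
      have hi2 := Z.iso_of_E (hN P' hP'.1).1 hP'.2.1
      rcases hlam ι A Z.s P P' (Z.act z) hA hi1 hi2 with h | h | h
      · exact Finset.eq_of_subset_of_card_le h hcc.ge
      · exact (Finset.eq_of_subset_of_card_le h hcc.le).symm
      · exact absurd hP'.2.2 (Finset.disjoint_left.mp h hP.2.2)
  have : (Finset.Icc 1 K).card = K := by simp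
  rw [this] at hcard
  exact_mod_cast hcard

end Sys

theorem stHeart (hnode : StNode) (hlam : StLam) (hpar : StPar) (hfew : StFew) :
    StHeart := by
  classical
  obtain ⟨c1, hc1, hnode⟩ := hnode
  refine ⟨min c1 (1 / 2), by positivity, ?_⟩
  intro ι κ _ _ Z m K β A A2 H1 Q δ F hβ hβ1 hm hA2 hA hH1 hdisj hsep hQ hδ hδK hb hQδ hF hFz
  -- constants
  have hm1 : (1:ℝ) ≤ m := by exact_mod_cast hm
  have hlog : 1 ≤ Real.log ((m:ℝ) + 3) := by
    rw [Real.le_log_iff_exp_le (by linarith)]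
    have := Real.exp_one_lt_d9
    linarith
  have hβ0 : 0 < β := by
    have h1 : min c1 (1 / 2) / Real.log ((m:ℝ) + 3) ≤ 1 / 2 := by
      rw [div_le_iff₀ (by linarith)]
      have := min_le_right c1 (1 / 2 : ℝ)
      nlinarith
    linarith
  have hβ' : 1 - c1 / Real.log ((m:ℝ) + 3) ≤ β := by
    refine le_trans ?_ hβ
    have : min c1 (1 / 2) / Real.log ((m:ℝ) + 3) ≤ c1 / Real.log ((m:ℝ) + 3) :=
      div_le_div_of_nonneg_right (min_le_left _ _) (by linarith)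
    linarith
  have hA1 : 1 ≤ A := by
    refine le_trans ?_ hA
    exact one_le_pow₀ (by nlinarith)
  by_cases htop : ∫⁻ z, Z.sq Finset.univ z = ⊤
  · rw [htop, ENNReal.mul_top]
    · exact le_top
    · rw [Ne, ENNReal.ofReal_eq_zero, not_le]
      positivity
  set ε : ℝ := m * (14 * K ^ 3 / Real.sqrt A2) with hε
  set th : ℕ → ℝ := fun k => 2 * m * k * δ with hth
  have hthmono : ∀ k l : ℕ, k ≤ l → th k ≤ th l := by
    intro k l hkl
    have : (k:ℝ) ≤ l := by exact_mod_cast hkl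
    simp only [hth]
    have h2 : 0 ≤ 2 * (m:ℝ) * δ := by positivity
    nlinarith
  set 𝒩 : Finset (Finset ι) := Finset.univ.filter fun P => Nod K m H1 Z.s P with h𝒩
  have mem𝒩 : ∀ P, P ∈ 𝒩 ↔ P.Nonempty ∧ P.card ≤ K ∧ Arc m H1 Z.s P := by
    intro P
    exact ⟨fun h => (Finset.mem_filter.mp h).2, fun h => Finset.mem_filter.mpr ⟨Finset.mem_univ _, h⟩⟩
  set 𝒩₂ : Finset (Finset ι) := 𝒩.filter fun P => 2 ≤ P.card with h𝒩₂
  set X : Finset ι → ℝ≥0∞ := fun P => ∫⁻ z in Z.E A P (th P.card), Z.phi β P z with hX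
  set V : Finset ι → Set (ℝ × ℝ) := fun P => Z.E A P (th (P.card - 1)) with hV
  set R : Finset ι → ℝ≥0∞ := fun c => ∫⁻ z in F ∩ {z | Z.act z = c}, Z.phi β c z with hR
  set Y : Finset ι → ℝ≥0∞ := fun c => ∑ P ∈ 𝒩₂.filter (fun P => c ∈ ch A Z.s P),
    ∫⁻ z in V P, Z.phi β c z with hY
  have hVmeas : ∀ P, MeasurableSet (V P) := fun P => Z.measurableSet_E _ _ _
  -- (1)
  have h1 : ∀ c ∈ 𝒩, R c + Y c ≤ X c := by
    intro c hc
    set T : Finset (Finset ι) := 𝒩₂.filter (fun P => c ∈ ch A Z.s P) with hT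
    have hTd : (T : Set (Finset ι)).PairwiseDisjoint V := by
      intro P hP P' hP' hne
      rw [Function.onFun, Set.disjoint_left]
      intro z hz hz'
      simp only [hT, Finset.coe_filter, Set.mem_ofPred_eq, h𝒩₂, Finset.mem_filter] at hP hP'
      exact hne (hpar ι A Z.s c P P' (Z.act z) hA1
        (Z.iso_of_E ((mem𝒩 P).mp hP.1.1).1 hz) (Z.iso_of_E ((mem𝒩 P').mp hP'.1.1).1 hz')
        hP.2 hP'.2)
    have hsum : Y c = ∫⁻ z in ⋃ P ∈ T, V P, Z.phi β c z := by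
      rw [lintegral_biUnion_finset hTd fun P _ => hVmeas P]
    have hd : Disjoint (F ∩ {z | Z.act z = c}) (⋃ P ∈ T, V P) := by
      rw [Set.disjoint_left]
      rintro z ⟨_, hz⟩ hz'
      simp only [Set.mem_iUnion, exists_prop] at hz'
      obtain ⟨P, hP, hzP⟩ := hz'
      simp only [hT, Finset.mem_filter] at hP
      have h2 : P ⊆ c := by
        intro i hi
        rw [← (hz : Z.act z = c)]
        exact Z.act_of_E hzP hi
      exact (mem_ch.mp hP.2).2.1 (Finset.Subset.antisymm (ch_sub hP.2) h2)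
    have hR' : R c = ∫⁻ z in F ∩ {z | Z.act z = c}, Z.phi β c z := rfl
    rw [hsum, hR', ← lintegral_union (Finset.measurableSet_biUnion T fun P _ => hVmeas P) hd]
    refine lintegral_mono_set (Set.union_subset ?_ ?_)
    · rintro z ⟨hzF, hz⟩ k _
      obtain ⟨_, _, hs⟩ := hFz z hzF
      refine ⟨Z.safe_mono (hthmono _ _ ((mem𝒩 c).mp hc).2.1) (hs k), ?_⟩
      rw [(hz : Z.act z = c)]
    · refine Set.iUnion₂_subset fun P hP => ?_
      simp only [hT, h𝒩₂, Finset.mem_filter] at hP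
      have hlt : c.card < P.card := by
        refine Finset.card_lt_card ⟨ch_sub hP.2, fun h => ?_⟩
        exact (mem_ch.mp hP.2).2.1 (Finset.Subset.antisymm (ch_sub hP.2) h)
      exact Z.E_child hP.2 (hthmono _ _ (by omega))
  -- (2)
  have h2 : ∀ P ∈ 𝒩₂, X P ≤ (∑ c ∈ ch A Z.s P, ∫⁻ z in V P, Z.phi β c z) +
      ENNReal.ofReal ε * ∫⁻ z in V P, Z.sq P z := by
    intro P hP
    simp only [h𝒩₂, Finset.mem_filter] at hP
    obtain ⟨hPN, hP2⟩ := hP
    obtain ⟨hPne, hPK, hParc⟩ := (mem𝒩 P).mp hPN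
    rcases (Z.E A P (th P.card)).eq_empty_or_nonempty with hE | ⟨z, hz⟩
    · simp [hX, hE]
    have hinj := Z.injOn_of_E hQ hsep hz
    have hcard := hfew ι A H1 m Z.s P hA1 hH1 hinj hP2 hParc
    have hth1 : th P.card - 2 * m * δ = th (P.card - 1) := by
      simp only [hth]
      have : ((P.card - 1 : ℕ) : ℝ) = (P.card : ℝ) - 1 := by
        rw [Nat.cast_sub (by omega)]
        simp
      rw [this]
      ring
    have hle1 : 2 * m * δ ≤ th P.card := by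
      have := hthmono 1 P.card (by omega)
      simp only [hth, Nat.cast_one, mul_one] at this
      simpa [hth] using this
    have hle2 : th P.card ≤ 1 / 2 := (hthmono _ _ hPK).trans (by simpa [hth] using hδK)
    have := hnode ι κ Z m K β A A2 Q δ (th P.card) P hβ' hβ1 hA2 hA hdisj hsep hQ hδ hle1 hle2
      hP2 hPK hcard hb hQδ
    rw [hth1] at this
    exact this
  -- (3) children of good sets are good
  have hchN : ∀ P ∈ 𝒩₂, ∀ c ∈ ch A Z.s P, c ∈ 𝒩 := by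
    intro P hP c hc
    simp only [h𝒩₂, Finset.mem_filter] at hP
    obtain ⟨hPne, hPK, hParc⟩ := (mem𝒩 P).mp hP.1
    exact (mem𝒩 c).mpr ⟨ch_nonempty hc, (Finset.card_le_card (ch_sub hc)).trans hPK,
      arc_mono (ch_sub hc) hParc⟩
  have hswap : ∑ P ∈ 𝒩₂, ∑ c ∈ ch A Z.s P, ∫⁻ z in V P, Z.phi β c z = ∑ c ∈ 𝒩, Y c := by
    simp only [hY]
    have e1 : ∀ P ∈ 𝒩₂, ∑ c ∈ ch A Z.s P, ∫⁻ z in V P, Z.phi β c z =
        ∑ c ∈ 𝒩, if c ∈ ch A Z.s P then ∫⁻ z in V P, Z.phi β c z else 0 := by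
      intro P hP
      rw [Finset.sum_ite_mem, Finset.inter_eq_right.mpr fun c hc => hchN P hP c hc]
    rw [Finset.sum_congr rfl e1, Finset.sum_comm]
    exact Finset.sum_congr rfl fun c _ => (Finset.sum_filter _ _).symm
  -- (4) the errors
  have h4 : ∑ P ∈ 𝒩₂, ∫⁻ z in V P, Z.sq P z ≤ K * ∫⁻ z, Z.sq Finset.univ z := by
    have e1 : ∀ P ∈ 𝒩₂, ∫⁻ z in V P, Z.sq P z = ∫⁻ z, (V P).indicator (Z.sq P) z := by
      intro P _
      rw [lintegral_indicator (hVmeas P)]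
    rw [Finset.sum_congr rfl e1, ← lintegral_finsetSum _
      (fun P _ => (Z.measurable_sq P).indicator (hVmeas P)),
      ← lintegral_const_mul _ (Z.measurable_sq _)]
    refine lintegral_mono fun z => ?_
    refine Z.sum_sq_le hlam hA1 𝒩₂ ?_ (fun P => th (P.card - 1)) z
    intro P hP
    simp only [h𝒩₂, Finset.mem_filter] at hP
    obtain ⟨hPne, hPK, hParc⟩ := (mem𝒩 P).mp hP.1
    exact ⟨hPne, hPK⟩
  -- (5) singletons
  have h5 : ∑ c ∈ 𝒩.filter (fun P => ¬ 2 ≤ P.card), X c ≤ ∫⁻ z, Z.sq Finset.univ z := by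
    have e1 : 𝒩.filter (fun P => ¬ 2 ≤ P.card) ⊆
        (Finset.univ : Finset ι).image (fun i => ({i} : Finset ι)) := by
      intro c hc
      simp only [Finset.mem_filter] at hc
      obtain ⟨hne, _, _⟩ := (mem𝒩 c).mp hc.1
      have : c.card = 1 := by
        have := Finset.card_pos.mpr hne
        omega
      obtain ⟨i, rfl⟩ := Finset.card_eq_one.mp this
      simp
    refine (Finset.sum_le_sum_of_subset e1).trans ?_
    rw [Finset.sum_image (fun i _ j _ h => by simpa using h)]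
    have e2 : ∫⁻ z, Z.sq Finset.univ z = ∑ i : ι, ∫⁻ z, Z.sq {i} z := by
      rw [← lintegral_finsetSum _ fun i _ => Z.measurable_sq _]
      refine lintegral_congr fun z => ?_
      simp [Sys.sq]
    rw [e2]
    refine Finset.sum_le_sum fun i _ => ?_
    refine (setLIntegral_le_lintegral _ _).trans ?_
    exact lintegral_mono fun z => Z.phi_single hβ0 i z
  -- finiteness
  have hfin : ∀ c, X c ≠ ⊤ := by
    intro c
    refine ne_top_of_le_ne_top ?_ ((setLIntegral_le_lintegral _ _).trans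
      (lintegral_mono fun z => Z.phi_le hβ0 c z))
    rw [lintegral_const_mul _ (Z.measurable_sq _)]
    refine ENNReal.mul_ne_top (by simp) ?_
    exact ne_top_of_le_ne_top htop (lintegral_mono fun z => Z.sq_mono (Finset.subset_univ _) z)
  have hYfin : ∑ c ∈ 𝒩, Y c ≠ ⊤ := by
    refine (ENNReal.sum_lt_top.mpr fun c hc => ?_).ne
    exact lt_of_le_of_lt (le_trans le_add_self (h1 c hc)) (hfin c).lt_top
  -- the sum
  have h6 : ∑ c ∈ 𝒩, R c + ∑ c ∈ 𝒩, Y c ≤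
      (ENNReal.ofReal (1 + K * ε) * ∫⁻ z, Z.sq Finset.univ z) + ∑ c ∈ 𝒩, Y c := by
    calc ∑ c ∈ 𝒩, R c + ∑ c ∈ 𝒩, Y c = ∑ c ∈ 𝒩, (R c + Y c) := by
          rw [Finset.sum_add_distrib]
      _ ≤ ∑ c ∈ 𝒩, X c := Finset.sum_le_sum h1
      _ = ∑ c ∈ 𝒩₂, X c + ∑ c ∈ 𝒩.filter (fun P => ¬ 2 ≤ P.card), X c := by
          rw [h𝒩₂, Finset.sum_filter_add_sum_filter_not]
      _ ≤ (∑ P ∈ 𝒩₂, ((∑ c ∈ ch A Z.s P, ∫⁻ z in V P, Z.phi β c z) +
            ENNReal.ofReal ε * ∫⁻ z in V P, Z.sq P z)) + ∫⁻ z, Z.sq Finset.univ z :=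
          add_le_add (Finset.sum_le_sum h2) h5
      _ = (∑ c ∈ 𝒩, Y c + ENNReal.ofReal ε * ∑ P ∈ 𝒩₂, ∫⁻ z in V P, Z.sq P z) +
            ∫⁻ z, Z.sq Finset.univ z := by
          rw [Finset.sum_add_distrib, hswap, Finset.mul_sum]
      _ ≤ (∑ c ∈ 𝒩, Y c + ENNReal.ofReal ε * (K * ∫⁻ z, Z.sq Finset.univ z)) +
            ∫⁻ z, Z.sq Finset.univ z :=
          add_le_add (add_le_add le_rfl (mul_le_mul_right h4 _)) le_rfl
      _ = _ := by
          rw [ENNReal.ofReal_add zero_le_one (by positivity), ENNReal.ofReal_one,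
            ENNReal.ofReal_mul (Nat.cast_nonneg K), ENNReal.ofReal_natCast]
          ring
  have h7 : ∑ c ∈ 𝒩, R c ≤ ENNReal.ofReal (1 + K * ε) * ∫⁻ z, Z.sq Finset.univ z :=
    (ENNReal.add_le_add_iff_right hYfin).mp h6
  -- (8) the left side
  have h8 : ∫⁻ z in F, Z.phi β Finset.univ z ≤ ∑ c ∈ 𝒩, R c := by
    have e1 : ∀ c ∈ 𝒩, R c = ∫⁻ z in F, ({z | Z.act z = c} : Set (ℝ × ℝ)).indicator
        (Z.phi β c) z := by
      intro c _
      rw [hR, lintegral_indicator (Z.measurableSet_act_eq c), Measure.restrict_restrict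
        (Z.measurableSet_act_eq c), Set.inter_comm]
    rw [Finset.sum_congr rfl e1, ← lintegral_finsetSum _
      (fun c _ => (Z.measurable_phi β c).indicator (Z.measurableSet_act_eq c))]
    refine setLIntegral_mono' hF fun z hz => ?_
    obtain ⟨hK, harc, _⟩ := hFz z hz
    rw [Z.phi_univ hβ0]
    rcases (Z.act z).eq_empty_or_nonempty with h0 | h0
    · rw [h0]
      refine le_trans (Z.phi_le hβ0 ∅ z) ?_
      simp [Sys.sq]
    · have hmem : Z.act z ∈ 𝒩 := (mem𝒩 _).mpr ⟨h0, hK, harc⟩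
      refine le_trans (le_of_eq ?_) (Finset.single_le_sum
        (f := fun c => ({z | Z.act z = c} : Set (ℝ × ℝ)).indicator (Z.phi β c) z)
        (fun c _ => zero_le) hmem)
      rw [Set.indicator_of_mem (show z ∈ {w | Z.act w = Z.act z} from rfl)]
  exact h8.trans h7

end Vale.Agent.P112.H646
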