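import Vale.Agent.P112.H646.Heart
import Vale.Agent.P112.H864.Clu
import Vale.Agent.P112.H491.StSub
import Vale.Agent.P112.H409.StAv
import Vale.Agent.P112.H51.Seg

/-!
# P112 [H]: the heart, unconditional
-/

namespace Vale.Agent.P112.H646

theorem heart : StHeart :=
  stHeart (stNode H491.stSub (H409.stAv_of H51.stSeg)) H864.stLam H864.stPar H864.stFew

end Vale.Agent.P112.H646
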