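import Vale.Agent.P112.H646.Basic

/-!
# P112 [H]: the node inequality from the group steps
-/

open MeasureTheory
open scoped ENNReal

noncomputable section

namespace Vale.Agent.P112.H646

theorem U_subset {ι : Type} {D : Finset (Finset ι)} {P : Finset ι} (h : ∀ C ∈ D, C ⊆ P) :
    U D ⊆ P := by
  intro i hi
  obtain ⟨C, hC, hiC⟩ := mem_U.mp hi
  exact h C hC hiC

theorem sum_U {ι M : Type} [AddCommMonoid M] (D : Finset (Finset ι))
    (hd : ∀ p ∈ D, ∀ p' ∈ D, p ≠ p' → Disjoint p p') (f : ι → M) :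
    ∑ i ∈ U D, f i = ∑ C ∈ D, ∑ i ∈ C, f i := by
  classical
  have : U D = D.biUnion id := by
    ext i
    simp [mem_U]
  rw [this]
  exact Finset.sum_biUnion (t := id) (fun p hp p' hp' hpp => hd p hp p' hp' hpp)

theorem card_U {ι : Type} (D : Finset (Finset ι))
    (hd : ∀ p ∈ D, ∀ p' ∈ D, p ≠ p' → Disjoint p p') : (U D).card = ∑ C ∈ D, C.card := by
  have := sum_U D hd (fun _ => (1:ℕ))
  simpa using this

theorem U_singleton {ι : Type} (C : Finset ι) : U {C} = C := by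
  ext i
  simp [mem_U]

theorem mem_ch {ι : Type} {A : ℝ} {s : ι → ℝ} {P C : Finset ι} :
    C ∈ ch A s P ↔ C ⊆ P ∧ C ≠ P ∧ Iso A s C P ∧
      ∀ C' : Finset ι, C' ≠ P → Iso A s C' P → C ⊆ C' → C' = C := by
  classical
  unfold ch
  simp [Finset.mem_filter, Finset.mem_powerset]

theorem ch_sub {ι : Type} {A : ℝ} {s : ι → ℝ} {P C : Finset ι} (h : C ∈ ch A s P) : C ⊆ P :=
  (mem_ch.mp h).1

theorem ch_nonempty {ι : Type} {A : ℝ} {s : ι → ℝ} {P C : Finset ι} (h : C ∈ ch A s P) :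
    C.Nonempty := (mem_ch.mp h).2.2.1.1

/-- the induction inside one node -/
theorem node_aux {ι κ : Type} [Fintype ι] [Fintype κ] (Z : Sys ι κ) {m : ℕ}
    {β A A2 δ : ℝ} {P : Finset ι} (hsub : StSub) (ε : ℝ≥0∞)
    (hA2 : 1 ≤ A2) (hA : (4 * (m + 1) * A2) ^ (m + 3) ≤ A) (hδ : 0 ≤ δ)
    (hP : 2 ≤ P.card) (hch : (ch A Z.s P).card ≤ m + 1)
    (hinj : Set.InjOn Z.s (P : Set ι))
    (hstep : ∀ (θ ρ : ℝ) (P' : Finset ι) (G : Finset (Finset ι)), 0 < ρ → 2 * δ ≤ θ →
      θ ≤ 1 / 2 → P' ⊆ P → P'.Nonempty →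
      (∀ i ∈ P, ∀ j ∈ P, |Z.s i - Z.s j| ≤ (3 * A) ^ (m + 2) * ρ) →
      G.card ≤ m + 1 → U G = P' →
      (∀ g ∈ G, g.Nonempty) → (∀ g ∈ G, ∀ g' ∈ G, g ≠ g' → Disjoint g g') →
      (∀ g ∈ G, ∀ i ∈ g, ∀ j ∈ g, A2 * |Z.s i - Z.s j| ≤ ρ) →
      (∀ g ∈ G, ∀ g' ∈ G, g ≠ g' → ∀ i ∈ g, ∀ j ∈ g', ρ ≤ |Z.s i - Z.s j|) →
      ∫⁻ z in Z.E A P θ, Z.phi β P' z ≤
        (∑ g ∈ G, ∫⁻ z in Z.E A P (θ - 2 * δ), Z.phi β g z) +
          ε * ∫⁻ z in Z.E A P (θ - 2 * δ), Z.sq P' z) :
    ∀ (n : ℕ) (D : Finset (Finset ι)), D ⊆ ch A Z.s P → D.card = n + 1 →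
      ∀ θ : ℝ, 2 * n * δ ≤ θ → θ ≤ 1 / 2 →
      ∫⁻ z in Z.E A P θ, Z.phi β (U D) z ≤
        (∑ C ∈ D, ∫⁻ z in Z.E A P (θ - 2 * n * δ), Z.phi β C z) +
          (n * ε) * ∫⁻ z in Z.E A P (θ - 2 * n * δ), Z.sq P z := by
  classical
  intro n
  induction n using Nat.strong_induction_on with
  | _ n ih =>
  intro D hD hcard θ hθ hθ'
  rcases Nat.eq_zero_or_pos n with hn | hn
  · subst hn
    obtain ⟨C, rfl⟩ := Finset.card_eq_one.mp (by simpa using hcard)
    simp [U_singleton]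
  · obtain ⟨ρ, hρ, parts, h2, hU, hne, hdisj, htight, hsep, hΓ⟩ :=
      hsub ι A A2 m Z.s P hA2 hA hinj hP hch D hD (by omega)
    have hsubD : ∀ p ∈ parts, p ⊆ D := by
      intro p hp C hC
      rw [← hU]
      exact mem_U.mpr ⟨p, hp, hC⟩
    have hdisjU : ∀ p ∈ parts, ∀ p' ∈ parts, p ≠ p' → Disjoint (U p) (U p') := by
      intro p hp p' hp' hpp
      rw [Finset.disjoint_left]
      intro i hi hi'
      have := hsep p hp p' hp' hpp i hi i hi'
      simp at this
      linarith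
    have hneU : ∀ p ∈ parts, (U p).Nonempty := by
      intro p hp
      obtain ⟨C, hC⟩ := hne p hp
      obtain ⟨i, hi⟩ := ch_nonempty (hD (hsubD p hp hC))
      exact ⟨i, mem_U.mpr ⟨C, hC, hi⟩⟩
    have hinjU : Set.InjOn (U : Finset (Finset ι) → Finset ι) (parts : Set (Finset (Finset ι))) := by
      intro p hp p' hp' h
      by_contra hne'
      have hd := hdisjU p hp p' hp' hne'
      rw [h] at hd
      have := hneU p' hp'
      rw [disjoint_self] at hd
      exact (Finset.nonempty_iff_ne_empty.mp this) hd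
    have hcardsum : ∑ p ∈ parts, p.card = n + 1 := by
      rw [← hcard, ← hU, card_U parts hdisj]
    have hposc : ∀ p ∈ parts, 1 ≤ p.card := fun p hp => Finset.card_pos.mpr (hne p hp)
    have hpc : ∀ p ∈ parts, p.card ≤ n := by
      intro p hp
      obtain ⟨p', hp', hpp⟩ := Finset.exists_mem_ne (by omega : 1 < parts.card) p
      have h3 : p.card + p'.card ≤ ∑ q ∈ parts, q.card := by
        rw [← Finset.sum_pair hpp.symm]
        exact Finset.sum_le_sum_of_subset (by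
          intro x hx
          simp only [Finset.mem_insert, Finset.mem_singleton] at hx
          rcases hx with rfl | rfl
          · exact hp
          · exact hp')
      have := hposc p' hp'
      omega
    have hpartscard : parts.card ≤ m + 1 := by
      have h4 : parts.card ≤ ∑ p ∈ parts, p.card := by
        calc parts.card = ∑ p ∈ parts, 1 := by simp
          _ ≤ _ := Finset.sum_le_sum hposc
      rw [hcardsum] at h4
      have h5 : D.card ≤ (ch A Z.s P).card := Finset.card_le_card hD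
      omega
    have hUU : U (parts.image U) = U D := by
      ext i
      rw [← hU]
      simp only [mem_U, Finset.mem_image]
      constructor
      · rintro ⟨C, ⟨p, hp, rfl⟩, hi⟩
        obtain ⟨C', hC', hi'⟩ := mem_U.mp hi
        exact ⟨C', ⟨p, hp, hC'⟩, hi'⟩
      · rintro ⟨C, ⟨p, hp, hC⟩, hi⟩
        exact ⟨U p, ⟨p, hp, rfl⟩, mem_U.mpr ⟨C, hC, hi⟩⟩
    have hUDP : U D ⊆ P := U_subset fun C hC => ch_sub (hD hC)
    have hUDne : (U D).Nonempty := by
      obtain ⟨C, hC⟩ := Finset.card_pos.mp (by omega : 0 < D.card)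
      obtain ⟨i, hi⟩ := ch_nonempty (hD hC)
      exact ⟨i, mem_U.mpr ⟨C, hC, hi⟩⟩
    have hn1 : (1:ℝ) ≤ n := by exact_mod_cast hn
    have hδn : 2 * δ ≤ 2 * n * δ := by nlinarith
    have hst := hstep θ ρ (U D) (parts.image U) hρ (hδn.trans hθ) hθ' hUDP hUDne hΓ
      ((Finset.card_image_le).trans hpartscard) hUU
      (by
        intro g hg
        obtain ⟨p, hp, rfl⟩ := Finset.mem_image.mp hg
        exact hneU p hp)
      (by
        intro g hg g' hg' hgg
        obtain ⟨p, hp, rfl⟩ := Finset.mem_image.mp hg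
        obtain ⟨p', hp', rfl⟩ := Finset.mem_image.mp hg'
        exact hdisjU p hp p' hp' fun h => hgg (by rw [h]))
      (by
        intro g hg
        obtain ⟨p, hp, rfl⟩ := Finset.mem_image.mp hg
        exact htight p hp)
      (by
        intro g hg g' hg' hgg
        obtain ⟨p, hp, rfl⟩ := Finset.mem_image.mp hg
        obtain ⟨p', hp', rfl⟩ := Finset.mem_image.mp hg'
        exact hsep p hp p' hp' fun h => hgg (by rw [h]))
    rw [Finset.sum_image hinjU] at hst
    -- the sets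
    set W := Z.E A P (θ - 2 * n * δ) with hW
    have hmono : ∀ θ' : ℝ, θ - 2 * n * δ ≤ θ' → Z.E A P θ' ⊆ W := fun θ' h => Z.E_mono h
    have hind : ∀ p ∈ parts, ∫⁻ z in Z.E A P (θ - 2 * δ), Z.phi β (U p) z ≤
        (∑ C ∈ p, ∫⁻ z in W, Z.phi β C z) + (((p.card - 1 : ℕ) : ℝ≥0∞) * ε) *
          ∫⁻ z in W, Z.sq P z := by
      intro p hp
      have hc1 := hposc p hp
      have hc2 := hpc p hp
      have hq : ((p.card - 1 : ℕ) : ℝ) ≤ (n : ℝ) - 1 := by
        have : p.card - 1 + 1 ≤ n := by omega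
        have : ((p.card - 1 : ℕ) : ℝ) + 1 ≤ n := by exact_mod_cast this
        linarith
      have hq0 : (0:ℝ) ≤ ((p.card - 1 : ℕ) : ℝ) := Nat.cast_nonneg _
      have hθ2 : 2 * ((p.card - 1 : ℕ) : ℝ) * δ ≤ θ - 2 * δ := by
        have : 2 * ((p.card - 1 : ℕ) : ℝ) * δ ≤ 2 * ((n:ℝ) - 1) * δ := by
          apply mul_le_mul_of_nonneg_right _ hδ
          linarith
        nlinarith
      have := ih (p.card - 1) (by omega) p ((hsubD p hp).trans hD) (by omega) (θ - 2 * δ)
        hθ2 (by linarith)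
      have hin : θ - 2 * n * δ ≤ θ - 2 * δ - 2 * ((p.card - 1 : ℕ) : ℝ) * δ := by
        have : 2 * ((p.card - 1 : ℕ) : ℝ) * δ ≤ 2 * ((n:ℝ) - 1) * δ := by
          apply mul_le_mul_of_nonneg_right _ hδ
          linarith
        nlinarith
      refine this.trans (add_le_add (Finset.sum_le_sum fun C _ => ?_) ?_)
      · exact lintegral_mono_set (hmono _ hin)
      · exact mul_le_mul_right (lintegral_mono_set (hmono _ hin)) _
    have hin1 : θ - 2 * n * δ ≤ θ - 2 * δ := by linarith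
    calc ∫⁻ z in Z.E A P θ, Z.phi β (U D) z
        ≤ (∑ p ∈ parts, ∫⁻ z in Z.E A P (θ - 2 * δ), Z.phi β (U p) z) +
          ε * ∫⁻ z in Z.E A P (θ - 2 * δ), Z.sq (U D) z := hst
      _ ≤ (∑ p ∈ parts, ((∑ C ∈ p, ∫⁻ z in W, Z.phi β C z) +
            (((p.card - 1 : ℕ) : ℝ≥0∞) * ε) * ∫⁻ z in W, Z.sq P z)) +
          ε * ∫⁻ z in W, Z.sq P z := by
          refine add_le_add (Finset.sum_le_sum hind) (mul_le_mul_right ?_ _)
          refine (lintegral_mono_set (hmono _ hin1)).trans ?_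
          exact lintegral_mono fun z => Z.sq_mono hUDP z
      _ = (∑ C ∈ D, ∫⁻ z in W, Z.phi β C z) +
          (((∑ p ∈ parts, (p.card - 1) : ℕ) : ℝ≥0∞) + 1) * ε * ∫⁻ z in W, Z.sq P z := by
          rw [Finset.sum_add_distrib, ← hU, sum_U parts hdisj]
          rw [← Finset.sum_mul, ← Finset.sum_mul, Nat.cast_sum]
          ring
      _ ≤ _ := by
          refine add_le_add le_rfl (mul_le_mul_left (mul_le_mul_left ?_ _) _)
          have h6 : (∑ p ∈ parts, (p.card - 1)) + 1 ≤ n := by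
            have h7 : ∑ p ∈ parts, (p.card - 1) + ∑ p ∈ parts, 1 = n + 1 := by
              rw [← hcardsum, ← Finset.sum_add_distrib]
              refine Finset.sum_congr rfl fun p hp => ?_
              have := hposc p hp
              omega
            simp only [Finset.sum_const, smul_eq_mul, mul_one] at h7
            omega
          exact_mod_cast h6

theorem stNode (hsub : StSub) (hav : StAv) : StNode := by
  obtain ⟨c0, hc0, hav⟩ := hav
  refine ⟨c0, hc0, ?_⟩
  intro ι κ _ _ Z m K β A A2 Q δ θ P hβ hβ1 hA2 hA hdisj hsep hQ hδ hθ hθ' hP hPK hch hb hQδ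
  classical
  rcases (Z.E A P θ).eq_empty_or_nonempty with hE | ⟨z, hz⟩
  · rw [hE]
    simp
  have hinj := Z.injOn_of_E hQ hsep hz
  have hbase : (4:ℝ) ≤ 4 * (m + 1) * A2 := by
    have : (0:ℝ) ≤ m := Nat.cast_nonneg m
    nlinarith
  have hA1 : 1 ≤ A := by
    refine le_trans ?_ hA
    exact one_le_pow₀ (by linarith)
  have hchU : U (ch A Z.s P) ⊆ P := U_subset fun C hC => ch_sub hC
  -- singletons are isolated, so the children cover `P`
  have hcov : U (ch A Z.s P) = P := by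
    refine Finset.Subset.antisymm hchU ?_
    intro i hi
    -- the isolated proper subsets containing `i`
    let 𝒮 : Finset (Finset ι) := P.powerset.filter fun C => C ≠ P ∧ Iso A Z.s C P ∧ i ∈ C
    have h𝒮 : 𝒮.Nonempty := by
      refine ⟨{i}, ?_⟩
      simp only [𝒮, Finset.mem_filter, Finset.mem_powerset, Finset.singleton_subset_iff]
      refine ⟨hi, ?_, ⟨⟨i, by simp⟩, by simpa using hi, ?_⟩, by simp⟩
      · intro h
        rw [← h] at hP
        simp at hP
      · intro k hk hnear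
        obtain ⟨a, ha, b, hb', c, hc, h⟩ := hnear
        rw [Finset.mem_singleton] at ha hb' hc
        rw [ha, hb', hc, sub_self, abs_zero, mul_zero] at h
        have h1 : Z.s i - Z.s k = 0 := by simpa using h
        have h2 : Z.s i = Z.s k := by linarith
        simpa using (hinj hi hk h2).symm
    obtain ⟨C, hC, hmax⟩ := Finset.exists_max_image 𝒮 Finset.card h𝒮
    simp only [𝒮, Finset.mem_filter, Finset.mem_powerset] at hC hmax
    refine mem_U.mpr ⟨C, mem_ch.mpr ⟨hC.1, hC.2.1, hC.2.2.1, ?_⟩, hC.2.2.2⟩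
    intro C' hC' hiso hsubC
    have := hmax C' ⟨hiso.2.1, hC', hiso, hsubC hC.2.2.2⟩
    exact (Finset.eq_of_subset_of_card_le hsubC this).symm
  have hcard1 : 1 ≤ (ch A Z.s P).card := by
    rw [Nat.one_le_iff_ne_zero]
    intro h0
    rw [Finset.card_eq_zero] at h0
    rw [h0] at hcov
    have : P = ∅ := by rw [← hcov]; simp [U]
    rw [this] at hP
    simp at hP
  obtain ⟨n, hn⟩ : ∃ n, (ch A Z.s P).card = n + 1 := ⟨(ch A Z.s P).card - 1, by omega⟩
  have hnm : n ≤ m := by omega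
  have hnm' : (n:ℝ) ≤ m := by exact_mod_cast hnm
  have hnδ : 2 * n * δ ≤ 2 * m * δ := by nlinarith
  have key := node_aux Z (β := β) hsub
    (ENNReal.ofReal (14 * K ^ 3 / Real.sqrt A2)) hA2 hA hδ hP hch hinj
    (by
      intro θ' ρ P' G hρ h1 h2 hP' hP'ne hΓ hG hUG hGne hGd hGt hGs
      exact hav ι κ Z m K β A A2 ρ ((3 * A) ^ (m + 2)) Q δ θ' P P' G hβ hβ1 hA1 hA2 hρ hdisj hsep
        hQ hδ h1 h2 hP hPK hP' hP'ne hΓ hb hQδ hG hUG hGne hGd hGt hGs)
    n (ch A Z.s P) (Finset.Subset.refl _) hn θ (hnδ.trans hθ) hθ'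
  rw [hcov] at key
  have hsubset : Z.E A P (θ - 2 * n * δ) ⊆ Z.E A P (θ - 2 * m * δ) := Z.E_mono (by linarith)
  refine key.trans (add_le_add (Finset.sum_le_sum fun C _ => lintegral_mono_set hsubset) ?_)
  refine mul_le_mul' ?_ (lintegral_mono_set hsubset)
  rw [ENNReal.ofReal_mul (Nat.cast_nonneg m), ENNReal.ofReal_natCast]
  exact mul_le_mul_left (by exact_mod_cast hnm) _

end Vale.Agent.P112.H646
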